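import Vale.Agent.P108.H320.Smooth2

/-!
# P108: recentring of the base point, one-sided continued fraction at a level
-/

namespace Vale.Agent.P108.H320

open Vale.Agent.P108 Vale.Agent.P108.Dyn Vale.Agent.P108.H504

variable {k ω h : ℝ} {p q : ℤ} {x y : ℤ → ℝ}

lemma Near.two_le (B : Base k ω p q x) (H : Near k ω h p q x y) :
    |D (av k x) p q| ≤ 2 * |D (av k y) p q| := by
  have h2 := tube_D_top B H
  have h3 := H.hh
  have hP : 0 < |D (av k x) p q| := abs_pos.2 B.ne
  have h4 : 320 * k * h * ω ^ 2 * |D (av k x) p q| ≤ 1 / 2 * |D (av k x) p q| :=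
    mul_le_mul_of_nonneg_right (by linarith) hP.le
  have h5 : |D (av k x) p q| ≤ |D (av k y) p q| + |D (av k y) p q - D (av k x) p q| := by
    have : D (av k x) p q = D (av k y) p q - (D (av k y) p q - D (av k x) p q) := by ring
    nth_rewrite 1 [this]
    exact abs_sub _ _
  linarith

lemma Near.le_two (B : Base k ω p q x) (H : Near k ω h p q x y) :
    |D (av k y) p q| ≤ 2 * |D (av k x) p q| := by
  have := tube_D_le B H (j := q + 1) (by have := B.hpq; omega) le_rfl
  rw [add_sub_cancel_right, sub_self, zpow_zero] at this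
  linarith

/-- every orbit of the tube is again a base orbit, with `4 ω` in place of `ω` -/
theorem Near.base (B : Base k ω p q x) (H : Near k ω h p q x y) : Base k (4 * ω) p q y := by
  have hk := B.hk
  have hω := B.hω
  have hω4 : 4 * ω ≤ 1 := by
    have h1 := H.kw B
    by_contra hcon
    push Not at hcon
    have h2 : 1 < (4 * ω) * (4 * ω) := by nlinarith
    nlinarith
  refine ⟨hk, by positivity, hω4, by have := B.hkω; nlinarith, B.hpq, H.orb, H.ne B, ?_⟩
  intro j h1 h2
  rcases eq_or_lt_of_le h2 with h3 | h3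
  · rw [h3, add_sub_cancel_right, sub_self, zpow_zero, one_mul]
  · have h4 := tube_D_le B H (j := j) (by omega) h2
    have h5 := H.two_le B
    have h6 : 0 < ω ^ (q + 1 - j) := zpow_pos hω _
    have h7 : 4 * ω ^ (q + 1 - j) ≤ (4 * ω) ^ (q + 1 - j) := by
      rw [mul_zpow]
      apply mul_le_mul_of_nonneg_right _ h6.le
      obtain ⟨n, hn⟩ := Int.eq_ofNat_of_zero_le (show 0 ≤ q + 1 - j by omega)
      have hn1 : 1 ≤ n := by omega
      rw [hn, zpow_natCast]
      calc (4 : ℝ) = 4 ^ 1 := by norm_num
        _ ≤ 4 ^ n := pow_le_pow_right₀ (by norm_num) hn1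
    calc |D (av k y) p (j - 1)| ≤ 2 * ω ^ (q + 1 - j) * |D (av k x) p q| := h4
      _ ≤ 2 * ω ^ (q + 1 - j) * (2 * |D (av k y) p q|) :=
          mul_le_mul_of_nonneg_left h5 (by positivity)
      _ = 4 * ω ^ (q + 1 - j) * |D (av k y) p q| := by ring
      _ ≤ (4 * ω) ^ (q + 1 - j) * |D (av k y) p q| :=
          mul_le_mul_of_nonneg_right h7 (abs_nonneg _)

/-- first order form of the digit expansion -/
theorem digit_one (B : Base k ω p q x) (H : Near k ω h p q x y) :
    |y (q + 1) - x (q + 1) - D (av k x) p q * (y p - x p)| ≤ 256 * k * ω ^ 2 * h ^ 2 := by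
  have := tube_e B H (q + 1) (by have := B.hpq; omega) le_rfl
  rw [sub_self, zpow_zero, add_sub_cancel_right] at this
  linarith

/-- **Exact one-sided continued fraction at a level**: `ρ = D p (q-1) / D p q`,
`τ = D (q+3) E / D (q+2) E`. -/
theorem cf_exact (a : ℤ → ℝ) {p q E : ℤ} (hpq : p ≤ q) (hE : q + 1 ≤ E)
    (h0 : D a p q ≠ 0) (h1 : D a p E ≠ 0) (h2 : D a (q + 2) E ≠ 0) :
    D a (p + 1) E / D a p E = D a (p + 1) q / D a p q +
      1 / (D a p q ^ 2 * (a (q + 1) - D a p (q - 1) / D a p q -
        D a (q + 3) E / D a (q + 2) E)) := by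
  have c1 := D_concat a (p := p) (q := E) (j := q + 1) (by omega) hE
  have c2 := D_concat a (p := p + 1) (q := E) (j := q + 1) (by omega) hE
  have r1 := D_right a (p := p) (q := q + 1) (by omega)
  have r2 := D_right a (p := p + 1) (q := q + 1) (by omega)
  have w := D_wronskian_left a (r := q - 1) (v := q) (j := p) (by omega) (by omega)
  rw [show q + 1 + 1 = q + 2 by ring, show q + 1 + 2 = q + 3 by ring,
    show q + 1 - 1 = q by ring] at c1 c2
  rw [show q + 1 - 1 = q by ring, show q + 1 - 2 = q - 1 by ring] at r1 r2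
  rw [show q - 1 + 2 = q + 1 by ring, D_empty' a q] at w
  -- the bracket is `D p E / (D p q * D (q+2) E)`
  have hb : a (q + 1) - D a p (q - 1) / D a p q - D a (q + 3) E / D a (q + 2) E =
      D a p E / (D a p q * D a (q + 2) E) := by
    rw [c1, r1]
    field_simp
  rw [hb]
  have hw : D a (p + 1) E * D a p q - D a (p + 1) q * D a p E = D a (q + 2) E := by
    rw [c1, c2, r1, r2]
    linear_combination D a (q + 2) E * w
  field_simp
  linear_combination hw

end Vale.Agent.P108.H320
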