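import Vale.Agent.P108.H320.Tube

/-!
# P108: second order expansion of the second orbit
-/

namespace Vale.Agent.P108.H320

open Vale.Agent.P108 Vale.Agent.P108.Dyn Vale.Agent.P108.H504

variable {k ω h : ℝ} {p q : ℤ} {x y : ℤ → ℝ}

/-- The second order coefficient of the orbit: depends only on the base orbit. -/
structure IsSec (k : ℝ) (p q : ℤ) (x s : ℤ → ℝ) : Prop where
  s0 : s (p - 1) = 0
  s1 : s p = 0
  sr : ∀ j, p ≤ j → s (j + 1) = FT.a k (x j) * s j - s (j - 1) +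
    a1 k (x j) / 2 * D (av k x) p (j - 1) ^ 2

lemma exists_isSec (k : ℝ) (p q : ℤ) (x : ℤ → ℝ) : ∃ s, IsSec k p q x s := by
  obtain ⟨s, h0, h1, h2⟩ := exists_sol (av k x)
    (fun j => a1 k (x j) / 2 * D (av k x) p (j - 1) ^ 2) p
  exact ⟨s, h0, h1, h2⟩

lemma kw_of (B : Base k ω p q x) (hw : 640 * k * ω ^ 2 ≤ 1) : 320 * k * ω ^ 2 ≤ 1 := by
  have := B.hk
  have : 0 ≤ k * ω ^ 2 := by positivity
  linarith

theorem sec_le (B : Base k ω p q x) (hw : 640 * k * ω ^ 2 ≤ 1) {s : ℤ → ℝ}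
    (S : IsSec k p q x s) : ∀ j, p - 1 ≤ j → j ≤ q + 1 →
    |s j| ≤ 2 * (20 * k * |D (av k x) p q| ^ 2) * ω ^ 2 * (ω ^ 2) ^ (q + 1 - j) := by
  have hk := B.hk
  have hω := B.hω
  refine gron (A := 7 * k) (by positivity) (by positivity) (by positivity)
    (cond2 B (kw_of B hw)) S.s0 S.s1 ?_
  intro j h1 h2 _
  rw [S.sr j h1]
  have hA := abs_a_le hk (x j)
  have h8 : |FT.a k (x j) * s j| ≤ 7 * k * |s j| := by
    rw [abs_mul]; exact mul_le_mul_of_nonneg_right hA (abs_nonneg _)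
  have hg := B.gr j h1 (by omega)
  have h9 : |a1 k (x j) / 2 * D (av k x) p (j - 1) ^ 2| ≤
      20 * k * |D (av k x) p q| ^ 2 * (ω ^ 2) ^ (q + 1 - j) := by
    rw [wsq B, abs_mul, abs_div, abs_pow, abs_of_pos (show (0 : ℝ) < 2 by norm_num)]
    have h3 := abs_a1_le (k := k) (by linarith) (x j)
    have h4 : |a1 k (x j)| / 2 ≤ 20 * k := by linarith
    have h5 := pow_le_pow_left₀ (abs_nonneg _) hg 2
    calc _ ≤ 20 * k * (ω ^ (q + 1 - j) * |D (av k x) p q|) ^ 2 :=
          mul_le_mul h4 h5 (by positivity) (by positivity)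
      _ = _ := by ring
  have h10 := abs_add_le (FT.a k (x j) * s j - s (j - 1))
    (a1 k (x j) / 2 * D (av k x) p (j - 1) ^ 2)
  have h11 := abs_sub (FT.a k (x j) * s j) (s (j - 1))
  linarith

/-- difference of squares -/
lemma sq_diff (B : Base k ω p q x) (H : Near k ω h p q x y) {j : ℤ} (h1 : p - 1 ≤ j)
    (h2 : j ≤ q + 1) :
    |(y j - x j) ^ 2 - D (av k x) p (j - 1) ^ 2 * (y p - x p) ^ 2| ≤
      768 * k * h ^ 3 * ω ^ 2 * (ω ^ 3) ^ (q + 1 - j) := by
  have he := tube_e B H j h1 h2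
  have hd := tube_disp B H h1 h2
  have hl := lin_disp B H h1 h2
  have hk := B.hk
  have hω := B.hω
  have hh1 := H.h1
  have hwp : 0 < ω ^ (q + 1 - j) := zpow_pos hω _
  rw [wsq B] at he
  rw [wcube B]
  have e : (y j - x j) ^ 2 - D (av k x) p (j - 1) ^ 2 * (y p - x p) ^ 2 =
      (y j - x j - D (av k x) p (j - 1) * (y p - x p)) *
      ((y j - x j) + D (av k x) p (j - 1) * (y p - x p)) := by ring
  rw [e, abs_mul]
  have h3 : |(y j - x j) + D (av k x) p (j - 1) * (y p - x p)| ≤ 3 * h * ω ^ (q + 1 - j) := by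
    refine (abs_add_le _ _).trans ?_
    linarith
  calc _ ≤ (2 * (128 * k * h ^ 2) * ω ^ 2 * (ω ^ (q + 1 - j) * ω ^ (q + 1 - j))) *
      (3 * h * ω ^ (q + 1 - j)) := mul_le_mul he h3 (abs_nonneg _) (by positivity)
    _ = _ := by ring

/-- **Second order expansion.** -/
theorem tube_R (B : Base k ω p q x) (H : Near k ω h p q x y) {s : ℤ → ℝ}
    (S : IsSec k p q x s) : ∀ j, p - 1 ≤ j → j ≤ q + 1 →
    |(y j - x j - D (av k x) p (j - 1) * (y p - x p) - s j * (y p - x p) ^ 2)| ≤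
      2 * (720 * k * h ^ 3) * ω ^ 3 * (ω ^ 3) ^ (q + 1 - j) := by
  have hw := H.kw B
  have hk := B.hk
  have hh1 := H.h1
  have hω := B.hω
  refine gron (e := fun j => y j - x j - D (av k x) p (j - 1) * (y p - x p) -
    s j * (y p - x p) ^ 2) (A := 7 * k) (by positivity) (by positivity) (by positivity)
    (cond3 B hw) ?_ ?_ ?_
  · rw [H.left, D_of_le _ (by omega), S.s0]; ring
  · rw [D_empty, S.s1]; ring
  · intro j h1 h2 _
    set R : ℤ → ℝ := fun j => y j - x j - D (av k x) p (j - 1) * (y p - x p) -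
      s j * (y p - x p) ^ 2 with hR
    have hrec : R (j + 1) = FT.a k (x j) * R j - R (j - 1) +
        ((phi k (y j) - phi k (x j) - FT.a k (x j) * (y j - x j) -
          a1 k (x j) / 2 * (y j - x j) ^ 2) +
        a1 k (x j) / 2 * ((y j - x j) ^ 2 - D (av k x) p (j - 1) ^ 2 * (y p - x p) ^ 2)) := by
      simp only [hR]
      rw [H.orb j h1 h2, B.orb j h1 h2, add_sub_cancel_right, D_right (av k x) h1, S.sr j h1]
      have e3 : j - 1 - 1 = j - 2 := by ring
      rw [e3]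
      simp only [av]
      ring
    change |R (j + 1)| ≤ 7 * k * |R j| + |R (j - 1)| + _
    rw [hrec]
    have hA := abs_a_le hk (x j)
    have h8 : |FT.a k (x j) * R j| ≤ 7 * k * |R j| := by
      rw [abs_mul]; exact mul_le_mul_of_nonneg_right hA (abs_nonneg _)
    have hd := tube_disp B H (j := j) (by omega) (by omega)
    have hsm := tube_small B H (j := j) (by omega) h2
    have hwp : 0 < ω ^ (q + 1 - j) := zpow_pos hω _
    have hT := phi_taylor (k := k) (by linarith) hsm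
    have h9 : 84 * k * |y j - x j| ^ 3 ≤ 672 * k * h ^ 3 * (ω ^ 3) ^ (q + 1 - j) := by
      rw [wcube B]
      have := pow_le_pow_left₀ (abs_nonneg _) hd 3
      calc 84 * k * |y j - x j| ^ 3 ≤ 84 * k * (2 * h * ω ^ (q + 1 - j)) ^ 3 :=
            mul_le_mul_of_nonneg_left this (by positivity)
        _ = _ := by ring
    have h10 : |a1 k (x j) / 2 * ((y j - x j) ^ 2 -
        D (av k x) p (j - 1) ^ 2 * (y p - x p) ^ 2)| ≤
        48 * k * h ^ 3 * (ω ^ 3) ^ (q + 1 - j) := by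
      rw [abs_mul, abs_div, abs_of_pos (show (0 : ℝ) < 2 by norm_num)]
      have h3 := abs_a1_le (k := k) (by linarith) (x j)
      have h4 : |a1 k (x j)| / 2 ≤ 20 * k := by linarith
      have h5 := sq_diff B H (j := j) (by omega) (by omega)
      have hW : 0 < (ω ^ 3) ^ (q + 1 - j) := zpow_pos (by positivity) _
      calc _ ≤ 20 * k * (768 * k * h ^ 3 * ω ^ 2 * (ω ^ 3) ^ (q + 1 - j)) :=
            mul_le_mul h4 h5 (abs_nonneg _) (by positivity)
        _ = 48 * (320 * k * ω ^ 2) * (k * h ^ 3 * (ω ^ 3) ^ (q + 1 - j)) := by ring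
        _ ≤ 48 * 1 * (k * h ^ 3 * (ω ^ 3) ^ (q + 1 - j)) := by
            apply mul_le_mul_of_nonneg_right _ (by positivity)
            linarith
        _ = _ := by ring
    have h12 := abs_add_le (FT.a k (x j) * R j - R (j - 1))
      ((phi k (y j) - phi k (x j) - FT.a k (x j) * (y j - x j) -
          a1 k (x j) / 2 * (y j - x j) ^ 2) +
        a1 k (x j) / 2 * ((y j - x j) ^ 2 - D (av k x) p (j - 1) ^ 2 * (y p - x p) ^ 2))
    have h13 := abs_add_le (phi k (y j) - phi k (x j) - FT.a k (x j) * (y j - x j) -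
          a1 k (x j) / 2 * (y j - x j) ^ 2)
        (a1 k (x j) / 2 * ((y j - x j) ^ 2 - D (av k x) p (j - 1) ^ 2 * (y p - x p) ^ 2))
    have h11 := abs_sub (FT.a k (x j) * R j) (R (j - 1))
    have e720 : 720 * k * h ^ 3 * (ω ^ 3) ^ (q + 1 - j) =
      672 * k * h ^ 3 * (ω ^ 3) ^ (q + 1 - j) + 48 * k * h ^ 3 * (ω ^ 3) ^ (q + 1 - j) := by ring
    linarith

/-- **The digit `x_{q+1}` on a cell**: quadratic up to `1440 k ω³ h³`, with coefficients depending
only on the base orbit. -/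
theorem digit (hB : Base k ω p q x) (hw : 640 * k * ω ^ 2 ≤ 1) :
    ∃ α : ℝ, |α| ≤ 40 * k * ω ^ 2 ∧ ∀ (h : ℝ) (y : ℤ → ℝ), Near k ω h p q x y →
      |y (q + 1) - (x (q + 1) + D (av k x) p q * (y p - x p) +
        α * (D (av k x) p q * (y p - x p)) ^ 2)| ≤ 1440 * k * ω ^ 3 * h ^ 3 := by
  obtain ⟨s, S⟩ := exists_isSec k p q x
  have hne := hB.ne
  have hP : 0 < |D (av k x) p q| ^ 2 := by positivity
  have hpq := hB.hpq
  refine ⟨s (q + 1) / D (av k x) p q ^ 2, ?_, ?_⟩
  · have h1 := sec_le hB hw S (q + 1) (by omega) le_rfl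
    rw [sub_self, zpow_zero] at h1
    rw [abs_div, abs_pow, div_le_iff₀ hP]
    linarith
  · intro h y H
    have h1 := tube_R hB H S (q + 1) (by omega) le_rfl
    rw [sub_self, zpow_zero, add_sub_cancel_right] at h1
    have e : y (q + 1) - (x (q + 1) + D (av k x) p q * (y p - x p) +
        s (q + 1) / D (av k x) p q ^ 2 * (D (av k x) p q * (y p - x p)) ^ 2) =
        y (q + 1) - x (q + 1) - D (av k x) p q * (y p - x p) - s (q + 1) * (y p - x p) ^ 2 := by
      field_simp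
      ring
    rw [e]
    linarith

end Vale.Agent.P108.H320
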