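import Vale.Agent.P108.H320.Second
import Vale.Agent.P108.H504.Leaf

/-!
# P108: the smooth part of the one-sided continued fraction is quadratic up to `k³ω⁵h³`
-/

namespace Vale.Agent.P108.H320

open Vale.Agent.P108 Vale.Agent.P108.Dyn Vale.Agent.P108.H504
open Finset (Icc mem_Icc)

variable {k ω h : ℝ} {p q : ℤ} {x y : ℤ → ℝ} {a a' : ℤ → ℝ}

/-- Resolvent identity. -/
lemma resolvent {i j : ℤ} (hD : D a p q ≠ 0) (hD' : D a' p q ≠ 0) (hj : j ∈ Icc p q)
    (hi : i ∈ Icc p q) : H504.G a' p q j i = H504.G a p q j i -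
      ∑ l ∈ Icc p q, H504.G a p q j l * ((a' l - a l) * H504.G a' p q l i) := by
  have e1 : ∀ j, p ≤ j → j ≤ q → a j * H504.G a' p q j i - H504.G a' p q (j - 1) i -
      H504.G a' p q (j + 1) i = (if j = i then 1 else 0) - (a' j - a j) * H504.G a' p q j i := by
    intro j h1 h2
    have := G_eq (i := i) hD' h1 h2
    linarith
  have h1 := mem_Icc.1 hj
  have e3 := eq_wsol (w := fun j => H504.G a' p q j i) hD (by omega) e1 (j := j) (by omega)
    (by omega)
  rw [G_left a' q (mem_Icc.1 hi).1, G_right a' p (mem_Icc.1 hi).2] at e3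
  unfold wsol at e3
  rw [zero_mul, zero_mul, zero_add, zero_add] at e3
  simp only [mul_sub, Finset.sum_sub_distrib, mul_ite, mul_one, mul_zero, Finset.sum_ite_eq', hi,
    if_true] at e3
  rw [e3]

/-- geometric sums over a window -/
lemma sum_geom_le {F : ℤ → ℝ} {C c : ℝ} (hc : 0 ≤ c) (hc2 : c ≤ 1 / 2) (hC : 0 ≤ C)
    (hF : ∀ l ∈ Icc p q, |F l| ≤ C * c ^ (q - l).toNat) : |∑ l ∈ Icc p q, F l| ≤ 2 * C := by
  refine (Finset.abs_sum_le_sum_abs _ _).trans ((Finset.sum_le_sum hF).trans ?_)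
  rw [← Finset.mul_sum]
  have h1 : ∑ l ∈ Icc p q, c ^ (q - l).toNat ≤ 2 := by
    have h2 : ∑ l ∈ Icc p q, c ^ (q - l).toNat = ∑ d ∈ Finset.range (q + 1 - p).toNat, c ^ d := by
      refine Finset.sum_nbij' (fun l => (q - l).toNat) (fun d => q - d) ?_ ?_ ?_ ?_ ?_
      · intro l hl
        have := mem_Icc.1 hl
        simp only [Finset.mem_range]
        omega
      · intro d hd
        have := Finset.mem_range.1 hd
        simp only [mem_Icc]
        omega
      · intro l hl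
        have := mem_Icc.1 hl
        omega
      · intro d hd
        have := Finset.mem_range.1 hd
        omega
      · intro l _
        rfl
    rw [h2]
    have h3 : ∑ d ∈ Finset.range (q + 1 - p).toNat, c ^ d ≤
        ∑ d ∈ Finset.range (q + 1 - p).toNat, (1 / 2 : ℝ) ^ d :=
      Finset.sum_le_sum fun d _ => pow_le_pow_left₀ hc hc2 d
    refine h3.trans ?_
    have h4 : ∑' d : ℕ, (1 / 2 : ℝ) ^ d = 2 := tsum_geometric_two
    refine le_trans ?_ h4.le
    exact Summable.sum_le_tsum _ (fun d _ => by positivity) summable_geometric_two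
  calc C * ∑ l ∈ Icc p q, c ^ (q - l).toNat ≤ C * 2 := mul_le_mul_of_nonneg_left h1 hC
    _ = 2 * C := by ring

/-- splitting of the kernel `ω^max M^min` -/
lemma split_kernel {α β ω M : ℝ} (hω : 0 < ω) (hM : 0 < M) (h1 : ω ≤ α) (h2 : ω ≤ β)
    (h3 : α * β = M * ω) {m n : ℕ} : ω ^ (max m n) * M ^ (min m n) ≤ α ^ m * β ^ n := by
  have hα : 0 < α := hω.trans_le h1
  have hβ : 0 < β := hω.trans_le h2
  rcases le_total n m with h | h
  · obtain ⟨t, rfl⟩ := Nat.exists_eq_add_of_le h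
    rw [max_eq_left (by omega), min_eq_right (by omega)]
    calc ω ^ (n + t) * M ^ n = (M * ω) ^ n * ω ^ t := by rw [pow_add, mul_pow]; ring
      _ ≤ (M * ω) ^ n * α ^ t :=
          mul_le_mul_of_nonneg_left (pow_le_pow_left₀ hω.le h1 t) (by positivity)
      _ = α ^ (n + t) * β ^ n := by rw [← h3, pow_add, mul_pow]; ring
  · obtain ⟨t, rfl⟩ := Nat.exists_eq_add_of_le h
    rw [max_eq_right (by omega), min_eq_left (by omega)]
    calc ω ^ (m + t) * M ^ m = (M * ω) ^ m * ω ^ t := by rw [pow_add, mul_pow]; ring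
      _ ≤ (M * ω) ^ m * β ^ t :=
          mul_le_mul_of_nonneg_left (pow_le_pow_left₀ hω.le h2 t) (by positivity)
      _ = α ^ m * β ^ (m + t) := by rw [← h3, pow_add, mul_pow]; ring

/-- conversion of the weights -/
lemma wnat (hω : 0 < ω) {j : ℤ} (hj : j ≤ q) : ω ^ (q + 1 - j) = ω * ω ^ (q - j).toNat := by
  obtain ⟨n, hn⟩ := Int.eq_ofNat_of_zero_le (show 0 ≤ q - j by omega)
  rw [show q + 1 - j = (n : ℤ) + 1 by omega, zpow_add_one₀ hω.ne', zpow_natCast,
    show (q - j).toNat = n by omega]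
  ring

/-- trivial bound for right continuants -/
lemma Dr_le {k : ℝ} (hk : 3 ≤ k) (z : ℤ → ℝ) {l : ℤ} (hl : l ≤ q) :
    |D (av k z) (l + 1) q| ≤ (8 * k) ^ (q - l).toNat := by
  have := abs_D_le (a := av k z) (p := l + 1) (q := q) (M := 8 * k) (by linarith)
    (fun j _ _ => by
      have := abs_a_le hk (z j)
      simp only [av]
      linarith)
  rwa [show (q + 1 - (l + 1)).toNat = (q - l).toNat by omega] at this

/-- Green function of the base orbit, trivial bound -/
lemma G_kernel (B : Base k ω p q x) {l j : ℤ} (hl : l ∈ Icc p q) (hj : j ∈ Icc p q) :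
    |H504.G (av k x) p q l j| ≤
      ω * (ω ^ (max (q - l).toNat (q - j).toNat) * (8 * k) ^ (min (q - l).toNat (q - j).toNat)) := by
  have key : ∀ l j : ℤ, l ∈ Icc p q → j ∈ Icc p q → l ≤ j → |H504.G (av k x) p q l j| ≤
      ω * (ω ^ (max (q - l).toNat (q - j).toNat) *
        (8 * k) ^ (min (q - l).toNat (q - j).toNat)) := by
    intro l j hl hj hlj
    have h1 := mem_Icc.1 hl
    have h2 := mem_Icc.1 hj
    rw [G_of_le _ p q hlj, abs_div, abs_mul, div_le_iff₀ (abs_pos.2 B.ne),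
      max_eq_left (by omega), min_eq_right (by omega)]
    have h3 := B.gr l h1.1 (by omega)
    rw [wnat B.hω h1.2] at h3
    have h4 := Dr_le B.hk x (q := q) h2.2
    have hk := B.hk
    have hω := B.hω
    calc _ ≤ (ω * ω ^ (q - l).toNat * |D (av k x) p q|) * (8 * k) ^ (q - j).toNat :=
          mul_le_mul h3 h4 (abs_nonneg _) (by positivity)
      _ = _ := by ring
  rcases le_total l j with h | h
  · exact key l j hl hj h
  · rw [G_symm, max_comm, min_comm]
    exact key j l hj hl h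

/-- the variation of the potential and its quadratic part -/
structure VData (k ω h : ℝ) (p q : ℤ) (x y : ℤ → ℝ) (al ga : ℤ → ℝ) (u : ℝ) : Prop where
  v1 : ∀ l ∈ Icc p q, |av k y l - av k x l| ≤ 80 * k * h * ω * ω ^ (q - l).toNat
  v2 : ∀ l ∈ Icc p q, |al l * u| ≤ 40 * k * h * ω * ω ^ (q - l).toNat
  v3 : ∀ l ∈ Icc p q, |av k y l - av k x l - al l * u| ≤
    150 * k * h ^ 2 * ω ^ 2 * (ω ^ 2) ^ (q - l).toNat
  v4 : ∀ l ∈ Icc p q, |av k y l - av k x l - al l * u - ga l * u ^ 2| ≤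
    4800 * k * h ^ 3 * ω ^ 3 * (ω ^ 3) ^ (q - l).toNat

theorem vdata (B : Base k ω p q x) (hw : 640 * k * ω ^ 2 ≤ 1) : ∃ al ga : ℤ → ℝ,
    ∀ (h : ℝ) (y : ℤ → ℝ), Near k ω h p q x y →
      VData k ω h p q x y al ga (D (av k x) p q * (y p - x p)) := by
  obtain ⟨s, S⟩ := exists_isSec k p q x
  set P := D (av k x) p q with hP
  have hne : P ≠ 0 := B.ne
  have hP0 : 0 < |P| := abs_pos.2 hne
  have hk := B.hk
  have hω := B.hω
  refine ⟨fun l => a1 k (x l) * D (av k x) p (l - 1) / P,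
    fun l => (a1 k (x l) * s l + a2 k (x l) * D (av k x) p (l - 1) ^ 2) / P ^ 2, ?_⟩
  intro h y H
  have hh1 := H.h1
  set Δ := y p - x p with hΔ
  have hu : |P * Δ| ≤ h := H.disp
  have hhω : 640 * h * ω ≤ 1 := by
    have h6 : 640 * h * ω ≤ 640 * h * ω * (k * ω) :=
      le_mul_of_one_le_right (by positivity) B.hkω
    have := H.hh
    nlinarith
  -- v1
  have hv1 : ∀ l ∈ Icc p q, |av k y l - av k x l| ≤ 80 * k * h * ω * ω ^ (q - l).toNat := by
    intro l hl
    have h1 := mem_Icc.1 hl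
    have hd := tube_disp B H (j := l) (by omega) (by omega)
    rw [wnat hω h1.2] at hd
    have := a_lip (k := k) (by linarith) (x l) (y l)
    calc _ ≤ 40 * k * |y l - x l| := this
      _ ≤ 40 * k * (2 * h * (ω * ω ^ (q - l).toNat)) :=
          mul_le_mul_of_nonneg_left hd (by positivity)
      _ = _ := by ring
  -- v2
  have hv2 : ∀ l ∈ Icc p q, |a1 k (x l) * D (av k x) p (l - 1) / P * (P * Δ)| ≤
      40 * k * h * ω * ω ^ (q - l).toNat := by
    intro l hl
    have h1 := mem_Icc.1 hl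
    have hd := lin_disp B H (j := l) (by omega) (by omega)
    rw [wnat hω h1.2] at hd
    have e : a1 k (x l) * D (av k x) p (l - 1) / P * (P * Δ) =
        a1 k (x l) * (D (av k x) p (l - 1) * Δ) := by field_simp
    rw [e, abs_mul]
    have h3 := abs_a1_le (k := k) (by linarith) (x l)
    calc _ ≤ 40 * k * (h * (ω * ω ^ (q - l).toNat)) :=
          mul_le_mul h3 hd (abs_nonneg _) (by positivity)
      _ = _ := by ring
  -- v4
  have hv4 : ∀ l ∈ Icc p q, |av k y l - av k x l -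
      a1 k (x l) * D (av k x) p (l - 1) / P * (P * Δ) -
      (a1 k (x l) * s l + a2 k (x l) * D (av k x) p (l - 1) ^ 2) / P ^ 2 * (P * Δ) ^ 2| ≤
      4800 * k * h ^ 3 * ω ^ 3 * (ω ^ 3) ^ (q - l).toNat := by
    intro l hl
    have h1 := mem_Icc.1 hl
    have hd := tube_disp B H (j := l) (by omega) (by omega)
    have hsm := tube_small B H (j := l) (by omega) h1.2
    have hT := a_taylor (k := k) (by linarith) hsm
    have hR := tube_R B H S l (by omega) (by omega)
    have hS := sq_diff B H (j := l) (by omega) (by omega)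
    have h3 := abs_a1_le (k := k) (by linarith) (x l)
    have h4 := abs_a2_le (k := k) (by linarith) (x l)
    have hw3 : 0 < (ω ^ 3) ^ (q + 1 - l) := zpow_pos (by positivity) _
    have e : av k y l - av k x l - a1 k (x l) * D (av k x) p (l - 1) / P * (P * Δ) -
        (a1 k (x l) * s l + a2 k (x l) * D (av k x) p (l - 1) ^ 2) / P ^ 2 * (P * Δ) ^ 2 =
        (FT.a k (y l) - FT.a k (x l) - a1 k (x l) * (y l - x l) - a2 k (x l) * (y l - x l) ^ 2) +
        (a1 k (x l) * (y l - x l - D (av k x) p (l - 1) * Δ - s l * Δ ^ 2) +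
        a2 k (x l) * ((y l - x l) ^ 2 - D (av k x) p (l - 1) ^ 2 * Δ ^ 2)) := by
      simp only [av]
      field_simp
      ring
    rw [e]
    have b1 : 534 * k * |y l - x l| ^ 3 ≤ 4272 * k * h ^ 3 * (ω ^ 3) ^ (q + 1 - l) := by
      rw [wcube B]
      have := pow_le_pow_left₀ (abs_nonneg _) hd 3
      calc _ ≤ 534 * k * (2 * h * ω ^ (q + 1 - l)) ^ 3 :=
            mul_le_mul_of_nonneg_left this (by positivity)
        _ = _ := by ring
    have hkω2 : 640 * k * ω ^ 3 ≤ 1 := by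
      have h5 : ω ^ 3 ≤ ω ^ 2 := by
        have : ω ^ 3 = ω ^ 2 * ω := by ring
        rw [this]
        nlinarith [sq_nonneg ω, B.hω1]
      have : 640 * k * ω ^ 3 ≤ 640 * k * ω ^ 2 := mul_le_mul_of_nonneg_left h5 (by positivity)
      linarith
    have b2 : |a1 k (x l) * (y l - x l - D (av k x) p (l - 1) * Δ - s l * Δ ^ 2)| ≤
        90 * k * h ^ 3 * (ω ^ 3) ^ (q + 1 - l) := by
      rw [abs_mul]
      calc _ ≤ 40 * k * (2 * (720 * k * h ^ 3) * ω ^ 3 * (ω ^ 3) ^ (q + 1 - l)) :=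
            mul_le_mul h3 hR (abs_nonneg _) (by positivity)
        _ = 90 * (640 * k * ω ^ 3) * (k * h ^ 3 * (ω ^ 3) ^ (q + 1 - l)) := by ring
        _ ≤ 90 * 1 * (k * h ^ 3 * (ω ^ 3) ^ (q + 1 - l)) := by
            apply mul_le_mul_of_nonneg_right _ (by positivity)
            linarith
        _ = _ := by ring
    have b3 : |a2 k (x l) * ((y l - x l) ^ 2 - D (av k x) p (l - 1) ^ 2 * Δ ^ 2)| ≤
        160 * k * h ^ 3 * (ω ^ 3) ^ (q + 1 - l) := by
      rw [abs_mul]
      calc _ ≤ 126 * k * (768 * k * h ^ 3 * ω ^ 2 * (ω ^ 3) ^ (q + 1 - l)) :=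
            mul_le_mul h4 hS (abs_nonneg _) (by positivity)
        _ = (126 * 768 / 640) * (640 * k * ω ^ 2) * (k * h ^ 3 * (ω ^ 3) ^ (q + 1 - l)) := by ring
        _ ≤ (126 * 768 / 640) * 1 * (k * h ^ 3 * (ω ^ 3) ^ (q + 1 - l)) := by
            apply mul_le_mul_of_nonneg_right _ (by positivity)
            linarith
        _ ≤ _ := by
            have : 0 < k * h ^ 3 * (ω ^ 3) ^ (q + 1 - l) := by positivity
            linarith
    have b4 := abs_add_le
      (FT.a k (y l) - FT.a k (x l) - a1 k (x l) * (y l - x l) - a2 k (x l) * (y l - x l) ^ 2)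
      (a1 k (x l) * (y l - x l - D (av k x) p (l - 1) * Δ - s l * Δ ^ 2) +
        a2 k (x l) * ((y l - x l) ^ 2 - D (av k x) p (l - 1) ^ 2 * Δ ^ 2))
    have b5 := abs_add_le
      (a1 k (x l) * (y l - x l - D (av k x) p (l - 1) * Δ - s l * Δ ^ 2))
      (a2 k (x l) * ((y l - x l) ^ 2 - D (av k x) p (l - 1) ^ 2 * Δ ^ 2))
    have e2 : (ω ^ 3) ^ (q + 1 - l) = ω ^ 3 * (ω ^ 3) ^ (q - l).toNat :=
      wnat (by positivity) h1.2
    have b6 : 4272 * k * h ^ 3 * (ω ^ 3) ^ (q + 1 - l) + (90 * k * h ^ 3 * (ω ^ 3) ^ (q + 1 - l) +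
        160 * k * h ^ 3 * (ω ^ 3) ^ (q + 1 - l)) ≤
        4800 * k * h ^ 3 * ω ^ 3 * (ω ^ 3) ^ (q - l).toNat := by
      have e3 : 4800 * k * h ^ 3 * ω ^ 3 * (ω ^ 3) ^ (q - l).toNat =
        4800 * (k * h ^ 3 * (ω ^ 3) ^ (q + 1 - l)) := by rw [e2]; ring
      rw [e3]
      have : 0 < k * h ^ 3 * (ω ^ 3) ^ (q + 1 - l) := by positivity
      linarith
    linarith
  refine ⟨hv1, hv2, ?_, hv4⟩
  -- v3
  intro l hl
  have h1 := mem_Icc.1 hl
  have b4 := hv4 l hl
  have hs := sec_le B hw S l (by omega) (by omega)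
  have hg := B.gr l h1.1 (by omega)
  have h3 := abs_a1_le (k := k) (by linarith) (x l)
  have h4 := abs_a2_le (k := k) (by linarith) (x l)
  have hω2 : (0 : ℝ) < ω ^ 2 := by positivity
  have e2 : (ω ^ 2) ^ (q + 1 - l) = ω ^ 2 * (ω ^ 2) ^ (q - l).toNat := wnat hω2 h1.2
  set W := (ω ^ 2) ^ (q - l).toNat with hW
  have hW0 : 0 < W := by positivity
  have c1 : |(a1 k (x l) * s l + a2 k (x l) * D (av k x) p (l - 1) ^ 2) / P ^ 2 * (P * Δ) ^ 2| ≤
      130 * k * h ^ 2 * ω ^ 2 * W := by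
    rw [abs_mul, abs_div, abs_pow, abs_pow]
    have c2 : |a1 k (x l) * s l + a2 k (x l) * D (av k x) p (l - 1) ^ 2| ≤
        130 * k * ω ^ 2 * W * |P| ^ 2 := by
      refine (abs_add_le _ _).trans ?_
      rw [abs_mul, abs_mul, abs_pow]
      have c3 : |a1 k (x l)| * |s l| ≤ 40 * k * (2 * (20 * k * |P| ^ 2) * ω ^ 2 *
          (ω ^ 2) ^ (q + 1 - l)) := mul_le_mul h3 hs (abs_nonneg _) (by positivity)
      have c4 : |a2 k (x l)| * |D (av k x) p (l - 1)| ^ 2 ≤
          126 * k * (ω ^ (q + 1 - l) * |P|) ^ 2 :=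
        mul_le_mul h4 (pow_le_pow_left₀ (abs_nonneg _) hg 2) (by positivity) (by positivity)
      have c5 : 126 * k * (ω ^ (q + 1 - l) * |P|) ^ 2 = 126 * k * ω ^ 2 * W * |P| ^ 2 := by
        have : ω ^ (q + 1 - l) * ω ^ (q + 1 - l) = ω ^ 2 * W := by rw [← wsq B, e2]
        calc _ = 126 * k * (ω ^ (q + 1 - l) * ω ^ (q + 1 - l)) * |P| ^ 2 := by ring
          _ = _ := by rw [this]; ring
      have c6 : 40 * k * (2 * (20 * k * |P| ^ 2) * ω ^ 2 * (ω ^ 2) ^ (q + 1 - l)) ≤
          4 * k * ω ^ 2 * W * |P| ^ 2 := by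
        rw [e2]
        calc _ = (5 / 2) * (640 * k * ω ^ 2) * (k * ω ^ 2 * W * |P| ^ 2) := by ring
          _ ≤ (5 / 2) * 1 * (k * ω ^ 2 * W * |P| ^ 2) := by
              apply mul_le_mul_of_nonneg_right _ (by positivity)
              linarith
          _ ≤ _ := by
              have : 0 < k * ω ^ 2 * W * |P| ^ 2 := by positivity
              linarith
      linarith
    have c7 : |P * Δ| ^ 2 ≤ h ^ 2 := pow_le_pow_left₀ (abs_nonneg _) hu 2
    have c8 : |a1 k (x l) * s l + a2 k (x l) * D (av k x) p (l - 1) ^ 2| / |P| ^ 2 ≤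
        130 * k * ω ^ 2 * W := by
      rw [div_le_iff₀ (by positivity)]
      exact c2
    calc _ ≤ (130 * k * ω ^ 2 * W) * h ^ 2 := mul_le_mul c8 c7 (by positivity) (by positivity)
      _ = _ := by ring
  have c9 : 4800 * k * h ^ 3 * ω ^ 3 * (ω ^ 3) ^ (q - l).toNat ≤ 20 * k * h ^ 2 * ω ^ 2 * W := by
    have d1 : (ω ^ 3) ^ (q - l).toNat ≤ W := by
      apply pow_le_pow_left₀ (by positivity)
      have : ω ^ 3 = ω ^ 2 * ω := by ring
      rw [this]
      nlinarith [sq_nonneg ω, B.hω1]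
    calc _ ≤ 4800 * k * h ^ 3 * ω ^ 3 * W := mul_le_mul_of_nonneg_left d1 (by positivity)
      _ = 7.5 * (640 * h * ω) * (k * h ^ 2 * ω ^ 2 * W) := by ring
      _ ≤ 7.5 * 1 * (k * h ^ 2 * ω ^ 2 * W) := by
          apply mul_le_mul_of_nonneg_right _ (by positivity)
          linarith
      _ ≤ _ := by
          have : 0 < k * h ^ 2 * ω ^ 2 * W := by positivity
          linarith
  have c10 : av k y l - av k x l - a1 k (x l) * D (av k x) p (l - 1) / P * (P * Δ) =
      (av k y l - av k x l - a1 k (x l) * D (av k x) p (l - 1) / P * (P * Δ) -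
      (a1 k (x l) * s l + a2 k (x l) * D (av k x) p (l - 1) ^ 2) / P ^ 2 * (P * Δ) ^ 2) +
      (a1 k (x l) * s l + a2 k (x l) * D (av k x) p (l - 1) ^ 2) / P ^ 2 * (P * Δ) ^ 2 := by ring
  rw [c10]
  refine (abs_add_le _ _).trans ?_
  linarith

/-- Smallness conditions on the exponent: with `ω = k^(-η)` they say `5η > 4`. -/
structure Sm (k ω : ℝ) : Prop where
  c1 : 640 * k * ω ^ 2 ≤ 1
  c2 : 8 * (8 * k) ^ 4 * ω ^ 5 ≤ 1

/-- Green function bound in split form, decaying in the second variable. -/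
lemma G_split (B : Base k ω p q x) (hS : Sm k ω) {l j : ℤ} (hl : l ∈ Icc p q)
    (hj : j ∈ Icc p q) : |H504.G (av k x) p q l j| ≤
      ω * ((2 * (8 * k) ^ 2 * ω ^ 2) ^ (q - l).toNat *
        (1 / (2 * (8 * k * ω))) ^ (q - j).toNat) := by
  have hk := B.hk
  have hω := B.hω
  refine (G_kernel B hl hj).trans (mul_le_mul_of_nonneg_left ?_ hω.le)
  have hkω := B.hkω
  refine split_kernel hω (by linarith) ?_ ?_ ?_
  · have : ω * 1 ≤ ω * (128 * k * (k * ω)) := by
      apply mul_le_mul_of_nonneg_left _ hω.le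
      nlinarith
    calc ω = ω * 1 := by ring
      _ ≤ ω * (128 * k * (k * ω)) := this
      _ = _ := by ring
  · rw [le_div_iff₀ (by positivity)]
    have := hS.c1
    have : 0 ≤ k * ω ^ 2 := by positivity
    nlinarith
  · field_simp

lemma G_split' (B : Base k ω p q x) (hS : Sm k ω) {l j : ℤ} (hl : l ∈ Icc p q)
    (hj : j ∈ Icc p q) : |H504.G (av k x) p q l j| ≤
      ω * ((1 / (2 * (8 * k * ω))) ^ (q - l).toNat *
        (2 * (8 * k) ^ 2 * ω ^ 2) ^ (q - j).toNat) := by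
  rw [G_symm]
  refine (G_split B hS hj hl).trans_eq (by ring)

lemma G_pl (B : Base k ω p q x) {l : ℤ} (hl : l ∈ Icc p q) :
    |D (av k x) p q * H504.G (av k x) p q p l| ≤ (8 * k) ^ (q - l).toNat := by
  have h1 := mem_Icc.1 hl
  rw [G_of_le _ p q h1.1, D_empty, one_mul, mul_div_cancel₀ _ B.ne]
  exact Dr_le B.hk x h1.2

lemma G_pl' (B : Base k ω p q x) (H : Near k ω h p q x y) {l : ℤ} (hl : l ∈ Icc p q) :
    |D (av k x) p q * H504.G (av k y) p q l p| ≤ 2 * (8 * k) ^ (q - l).toNat := by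
  have h1 := mem_Icc.1 hl
  rw [G_of_ge _ p q h1.1, D_empty, one_mul]
  have h2 := tube_D_top B H
  have h3 := H.hh
  have hP : 0 < |D (av k x) p q| := abs_pos.2 B.ne
  have h4 : 320 * k * h * ω ^ 2 * |D (av k x) p q| ≤ 1 / 2 * |D (av k x) p q| :=
    mul_le_mul_of_nonneg_right (by linarith) hP.le
  have h5 : |D (av k x) p q| ≤ |D (av k y) p q| + |D (av k y) p q - D (av k x) p q| := by
    have : D (av k x) p q = D (av k y) p q - (D (av k y) p q - D (av k x) p q) := by ring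
    nth_rewrite 1 [this]
    exact abs_sub _ _
  have h6 : |D (av k x) p q| ≤ 2 * |D (av k y) p q| := by linarith
  have h7 : 0 < |D (av k y) p q| := by linarith
  have h8 := Dr_le B.hk y h1.2
  rw [abs_mul, abs_div, ← mul_div_assoc, div_le_iff₀ h7]
  calc _ ≤ (2 * |D (av k y) p q|) * (8 * k) ^ (q - l).toNat :=
        mul_le_mul h6 h8 (abs_nonneg _) (by positivity)
    _ = _ := by ring

lemma Near.ne (B : Base k ω p q x) (H : Near k ω h p q x y) : D (av k y) p q ≠ 0 := by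
  intro h0
  have h2 := tube_D_top B H
  have h3 := H.hh
  have hP : 0 < |D (av k x) p q| := abs_pos.2 B.ne
  rw [h0, zero_sub, abs_neg] at h2
  have h4 : 320 * k * h * ω ^ 2 * |D (av k x) p q| ≤ 1 / 2 * |D (av k x) p q| :=
    mul_le_mul_of_nonneg_right (by linarith) hP.le
  linarith

end Vale.Agent.P108.H320
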