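import Vale.Agent.P108.H320.Smooth

/-!
# P108: `SMOOTH`: `P² D'(p+1,q)/D'(p,q)` is a quadratic polynomial up to `10⁷ k³ω⁵h³`
-/

namespace Vale.Agent.P108.H320

open Vale.Agent.P108 Vale.Agent.P108.Dyn Vale.Agent.P108.H504
open Finset (Icc mem_Icc)

variable {k ω h : ℝ} {p q : ℤ} {x y : ℤ → ℝ}

/-- **SMOOTH.** -/
theorem smooth (B : Base k ω p q x) (hS : Sm k ω) : ∃ C0 C1 C2 : ℝ,
    ∀ (h : ℝ) (y : ℤ → ℝ), Near k ω h p q x y →
      |D (av k x) p q ^ 2 * (D (av k y) (p + 1) q / D (av k y) p q) -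
        (C0 + C1 * (D (av k x) p q * (y p - x p)) +
          C2 * (D (av k x) p q * (y p - x p)) ^ 2)| ≤ 10 ^ 7 * k ^ 3 * ω ^ 5 * h ^ 3 := by
  obtain ⟨al, ga, hV⟩ := vdata B hS.c1
  set P := D (av k x) p q with hP
  set gh : ℤ → ℝ := fun l => P * H504.G (av k x) p q p l with hgh
  set Gx : ℤ → ℤ → ℝ := H504.G (av k x) p q with hGx
  refine ⟨P ^ 2 * Gx p p, -∑ l ∈ Icc p q, gh l ^ 2 * al l,
    -∑ l ∈ Icc p q, gh l ^ 2 * ga l +
      ∑ l ∈ Icc p q, gh l * (al l * ∑ j ∈ Icc p q, Gx l j * (al j * gh j)), ?_⟩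
  intro h y H
  obtain ⟨v1, v2, v3, v4⟩ := hV h y H
  have hk := B.hk
  have hω := B.hω
  have hkω := B.hkω
  have hh1 := H.h1
  have hpI : p ∈ Icc p q := mem_Icc.2 ⟨le_rfl, B.hpq⟩
  have hne := B.ne
  have hne' := H.ne B
  set u := P * (y p - x p) with hu
  set V : ℤ → ℝ := fun l => av k y l - av k x l with hVdef
  set Gy : ℤ → ℤ → ℝ := H504.G (av k y) p q with hGy
  set M := 8 * k with hM
  have hM0 : 0 < M := by positivity
  set α := 2 * M ^ 2 * ω ^ 2 with hα
  set β := 1 / (2 * (M * ω)) with hβ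
  have hα0 : 0 < α := by positivity
  have hβ0 : 0 < β := by positivity
  have hMωβ : M * ω * β = 1 / 2 := by rw [hβ]; field_simp
  have hMω : 8 ≤ M * ω := by rw [hM]; nlinarith
  have hMω2α : M * ω ^ 2 * α ≤ 1 / 2 := by
    have h1 := hS.c2
    have h2 : M ^ 3 * ω ^ 4 * 8 ≤ M ^ 3 * ω ^ 4 * (M * ω) :=
      mul_le_mul_of_nonneg_left hMω (by positivity)
    have h3 : M ^ 3 * ω ^ 4 * (M * ω) = M ^ 4 * ω ^ 5 := by ring
    have h4 : M * ω ^ 2 * α = 2 * (M ^ 3 * ω ^ 4) := by rw [hα]; ring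
    rw [h4]
    linarith
  have hωα2 : ω * α ^ 2 ≤ 1 / 2 := by
    have h1 := hS.c2
    have h4 : ω * α ^ 2 = 4 * (M ^ 4 * ω ^ 5) := by rw [hα]; ring
    rw [h4]
    linarith
  have hM2ω3 : M ^ 2 * ω ^ 3 ≤ 1 / 2 := by
    have h1 := hS.c2
    have h2 : M ^ 2 * ω ^ 3 * 1 ≤ M ^ 2 * ω ^ 3 * (M * ω) ^ 2 := by
      apply mul_le_mul_of_nonneg_left _ (by positivity)
      nlinarith
    have h3 : M ^ 2 * ω ^ 3 * (M * ω) ^ 2 = M ^ 4 * ω ^ 5 := by ring
    linarith
  -- exact expansions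
  have res : ∀ l ∈ Icc p q, P * Gy l p = P * Gx l p -
      ∑ j ∈ Icc p q, Gx l j * (V j * (P * Gy j p)) := by
    intro l hl
    have := resolvent (a := av k x) (a' := av k y) hne hne' hl hpI
    simp only [hGy, hGx]
    rw [this, mul_sub, Finset.mul_sum]
    congr 1
    exact Finset.sum_congr rfl fun j _ => by simp only [hVdef]; ring
  have gsym : ∀ l, P * Gx l p = gh l := by
    intro l
    simp only [hGx, hgh]
    rw [G_symm]
  set K1 : ℤ → ℝ := fun j => ∑ i ∈ Icc p q, Gx j i * (V i * (P * Gy i p)) with hK1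
  set K2 : ℤ → ℝ := fun l => ∑ j ∈ Icc p q, Gx l j * (V j * K1 j) with hK2
  set K3 : ℝ := ∑ l ∈ Icc p q, gh l * (V l * K2 l) with hK3
  have r1 : ∀ l ∈ Icc p q, P * Gy l p = gh l - ∑ j ∈ Icc p q, Gx l j * (V j * gh j) + K2 l := by
    intro l hl
    rw [res l hl, gsym l]
    have : ∑ j ∈ Icc p q, Gx l j * (V j * (P * Gy j p)) =
        ∑ j ∈ Icc p q, Gx l j * (V j * gh j) - K2 l := by
      rw [hK2, ← Finset.sum_sub_distrib]
      refine Finset.sum_congr rfl fun j hj => ?_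
      rw [res j hj, gsym j]
      simp only [hK1]
      ring
    rw [this]
    ring
  have r2 : P ^ 2 * Gy p p = P ^ 2 * Gx p p - ∑ l ∈ Icc p q, gh l ^ 2 * V l +
      ∑ l ∈ Icc p q, gh l * (V l * ∑ j ∈ Icc p q, Gx l j * (V j * gh j)) - K3 := by
    have h1 : P ^ 2 * Gy p p = P * (P * Gy p p) := by ring
    rw [h1, res p hpI, mul_sub, Finset.mul_sum]
    have h2 : ∑ l ∈ Icc p q, P * (Gx p l * (V l * (P * Gy l p))) =
        ∑ l ∈ Icc p q, gh l ^ 2 * V l -
        ∑ l ∈ Icc p q, gh l * (V l * ∑ j ∈ Icc p q, Gx l j * (V j * gh j)) + K3 := by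
      rw [hK3, ← Finset.sum_sub_distrib, ← Finset.sum_add_distrib]
      refine Finset.sum_congr rfl fun l hl => ?_
      rw [r1 l hl]
      have : P * (Gx p l * (V l * (gh l - ∑ j ∈ Icc p q, Gx l j * (V j * gh j) + K2 l))) =
        gh l * (V l * (gh l - ∑ j ∈ Icc p q, Gx l j * (V j * gh j) + K2 l)) := by
        simp only [hgh, hGx]; ring
      rw [this]
      ring
    rw [h2]
    ring
  have hGpp : D (av k y) (p + 1) q / D (av k y) p q = Gy p p := by
    simp only [hGy]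
    rw [G_of_le _ p q le_rfl, D_empty, one_mul]
  -- bounds
  have bgh : ∀ l ∈ Icc p q, |gh l| ≤ M ^ (q - l).toNat := fun l hl => G_pl B hl
  have bGy : ∀ l ∈ Icc p q, |P * Gy l p| ≤ 2 * M ^ (q - l).toNat := fun l hl => G_pl' B H hl
  have bG : ∀ l ∈ Icc p q, ∀ j ∈ Icc p q, |Gx l j| ≤
      ω * (α ^ (q - l).toNat * β ^ (q - j).toNat) := fun l hl j hj => G_split B hS hl hj
  have bG' : ∀ l ∈ Icc p q, ∀ j ∈ Icc p q, |Gx l j| ≤
      ω * (β ^ (q - l).toNat * α ^ (q - j).toNat) := fun l hl j hj => G_split' B hS hl hj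
  clear_value α β M
  have bK1 : ∀ j ∈ Icc p q, |K1 j| ≤ 320 * k * h * ω ^ 2 * α ^ (q - j).toNat := by
    intro j hj
    have := sum_geom_le (p := p) (q := q) (F := fun i => Gx j i * (V i * (P * Gy i p)))
      (C := 160 * k * h * ω ^ 2 * α ^ (q - j).toNat) (c := M * ω * β)
      (by positivity) hMωβ.le (by positivity) (by
        intro i hi
        rw [abs_mul, abs_mul]
        calc |Gx j i| * (|V i| * |P * Gy i p|) ≤
            (ω * (α ^ (q - j).toNat * β ^ (q - i).toNat)) *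
            ((80 * k * h * ω * ω ^ (q - i).toNat) * (2 * M ^ (q - i).toNat)) :=
              mul_le_mul (bG j hj i hi) (mul_le_mul (v1 i hi) (bGy i hi) (abs_nonneg _)
                (by positivity)) (by positivity) (by positivity)
          _ = _ := by rw [mul_pow, mul_pow]; ring)
    refine this.trans_eq (by ring)
  have bK2 : ∀ l ∈ Icc p q, |K2 l| ≤ 51200 * k ^ 2 * h ^ 2 * ω ^ 4 * β ^ (q - l).toNat := by
    intro l hl
    have := sum_geom_le (p := p) (q := q) (F := fun j => Gx l j * (V j * K1 j))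
      (C := 25600 * k ^ 2 * h ^ 2 * ω ^ 4 * β ^ (q - l).toNat) (c := ω * α ^ 2)
      (by positivity) hωα2 (by positivity) (by
        intro j hj
        rw [abs_mul, abs_mul]
        calc |Gx l j| * (|V j| * |K1 j|) ≤
            (ω * (β ^ (q - l).toNat * α ^ (q - j).toNat)) *
            ((80 * k * h * ω * ω ^ (q - j).toNat) *
              (320 * k * h * ω ^ 2 * α ^ (q - j).toNat)) :=
              mul_le_mul (bG' l hl j hj) (mul_le_mul (v1 j hj) (bK1 j hj) (abs_nonneg _)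
                (by positivity)) (by positivity) (by positivity)
          _ = _ := by rw [mul_pow]; ring)
    refine this.trans_eq (by ring)
  have bK3 : |K3| ≤ 8192000 * k ^ 3 * h ^ 3 * ω ^ 5 := by
    have := sum_geom_le (p := p) (q := q) (F := fun l => gh l * (V l * K2 l))
      (C := 4096000 * k ^ 3 * h ^ 3 * ω ^ 5) (c := M * ω * β)
      (by positivity) hMωβ.le (by positivity) (by
        intro l hl
        rw [abs_mul (gh l), abs_mul (V l)]
        calc |gh l| * (|V l| * |K2 l|) ≤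
            M ^ (q - l).toNat * ((80 * k * h * ω * ω ^ (q - l).toNat) *
              (51200 * k ^ 2 * h ^ 2 * ω ^ 4 * β ^ (q - l).toNat)) :=
              mul_le_mul (bgh l hl) (mul_le_mul (v1 l hl) (bK2 l hl) (abs_nonneg _)
                (by positivity)) (by positivity) (by positivity)
          _ = _ := by rw [mul_pow, mul_pow]; ring)
    refine this.trans_eq (by ring)
  -- first order sum
  have bT1 : |∑ l ∈ Icc p q, gh l ^ 2 * (V l - al l * u - ga l * u ^ 2)| ≤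
      9600 * k * h ^ 3 * ω ^ 3 := by
    have := sum_geom_le (p := p) (q := q)
      (F := fun l => gh l ^ 2 * (V l - al l * u - ga l * u ^ 2))
      (C := 4800 * k * h ^ 3 * ω ^ 3) (c := M ^ 2 * ω ^ 3)
      (by positivity) hM2ω3 (by positivity) (by
        intro l hl
        rw [abs_mul, abs_pow]
        calc |gh l| ^ 2 * |V l - al l * u - ga l * u ^ 2| ≤
            (M ^ (q - l).toNat) ^ 2 *
              (4800 * k * h ^ 3 * ω ^ 3 * (ω ^ 3) ^ (q - l).toNat) :=
              mul_le_mul (pow_le_pow_left₀ (abs_nonneg _) (bgh l hl) 2) (v4 l hl)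
                (abs_nonneg _) (by positivity)
          _ = _ := by rw [mul_pow]; ring)
    refine this.trans_eq (by ring)
  -- second order sums
  have bin : ∀ l ∈ Icc p q, |∑ j ∈ Icc p q, Gx l j * (V j * gh j)| ≤
      160 * k * h * ω ^ 2 * α ^ (q - l).toNat := by
    intro l hl
    have := sum_geom_le (p := p) (q := q) (F := fun j => Gx l j * (V j * gh j))
      (C := 80 * k * h * ω ^ 2 * α ^ (q - l).toNat) (c := M * ω * β)
      (by positivity) hMωβ.le (by positivity) (by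
        intro j hj
        rw [abs_mul, abs_mul]
        calc |Gx l j| * (|V j| * |gh j|) ≤
            (ω * (α ^ (q - l).toNat * β ^ (q - j).toNat)) *
            ((80 * k * h * ω * ω ^ (q - j).toNat) * M ^ (q - j).toNat) :=
              mul_le_mul (bG l hl j hj) (mul_le_mul (v1 j hj) (bgh j hj) (abs_nonneg _)
                (by positivity)) (by positivity) (by positivity)
          _ = _ := by rw [mul_pow, mul_pow]; ring)
    refine this.trans_eq (by ring)
  have bin2 : ∀ l ∈ Icc p q, |∑ j ∈ Icc p q, Gx l j * ((V j - al j * u) * gh j)| ≤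
      300 * k * h ^ 2 * ω ^ 3 * β ^ (q - l).toNat := by
    intro l hl
    have := sum_geom_le (p := p) (q := q) (F := fun j => Gx l j * ((V j - al j * u) * gh j))
      (C := 150 * k * h ^ 2 * ω ^ 3 * β ^ (q - l).toNat) (c := M * ω ^ 2 * α)
      (by positivity) hMω2α (by positivity) (by
        intro j hj
        rw [abs_mul, abs_mul]
        calc |Gx l j| * (|V j - al j * u| * |gh j|) ≤
            (ω * (β ^ (q - l).toNat * α ^ (q - j).toNat)) *
            ((150 * k * h ^ 2 * ω ^ 2 * (ω ^ 2) ^ (q - j).toNat) * M ^ (q - j).toNat) :=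
              mul_le_mul (bG' l hl j hj) (mul_le_mul (v3 j hj) (bgh j hj) (abs_nonneg _)
                (by positivity)) (by positivity) (by positivity)
          _ = _ := by rw [mul_pow, mul_pow]; ring)
    refine this.trans_eq (by ring)
  have bT2 : |∑ l ∈ Icc p q, gh l * ((V l - al l * u) *
      ∑ j ∈ Icc p q, Gx l j * (V j * gh j))| ≤ 48000 * k ^ 2 * h ^ 3 * ω ^ 4 := by
    have := sum_geom_le (p := p) (q := q)
      (F := fun l => gh l * ((V l - al l * u) * ∑ j ∈ Icc p q, Gx l j * (V j * gh j)))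
      (C := 24000 * k ^ 2 * h ^ 3 * ω ^ 4) (c := M * ω ^ 2 * α)
      (by positivity) hMω2α (by positivity) (by
        intro l hl
        rw [abs_mul (gh l), abs_mul (V l - al l * u)]
        calc |gh l| * (|V l - al l * u| * |∑ j ∈ Icc p q, Gx l j * (V j * gh j)|) ≤
            M ^ (q - l).toNat * ((150 * k * h ^ 2 * ω ^ 2 * (ω ^ 2) ^ (q - l).toNat) *
              (160 * k * h * ω ^ 2 * α ^ (q - l).toNat)) :=
              mul_le_mul (bgh l hl) (mul_le_mul (v3 l hl) (bin l hl) (abs_nonneg _)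
                (by positivity)) (by positivity) (by positivity)
          _ = _ := by rw [mul_pow, mul_pow]; ring)
    refine this.trans_eq (by ring)
  have bT3 : |∑ l ∈ Icc p q, gh l * ((al l * u) *
      ∑ j ∈ Icc p q, Gx l j * ((V j - al j * u) * gh j))| ≤ 24000 * k ^ 2 * h ^ 3 * ω ^ 4 := by
    have := sum_geom_le (p := p) (q := q)
      (F := fun l => gh l * ((al l * u) * ∑ j ∈ Icc p q, Gx l j * ((V j - al j * u) * gh j)))
      (C := 12000 * k ^ 2 * h ^ 3 * ω ^ 4) (c := M * ω * β)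
      (by positivity) hMωβ.le (by positivity) (by
        intro l hl
        rw [abs_mul (gh l), abs_mul (al l * u)]
        calc |gh l| * (|al l * u| * |∑ j ∈ Icc p q, Gx l j * ((V j - al j * u) * gh j)|) ≤
            M ^ (q - l).toNat * ((40 * k * h * ω * ω ^ (q - l).toNat) *
              (300 * k * h ^ 2 * ω ^ 3 * β ^ (q - l).toNat)) :=
              mul_le_mul (bgh l hl) (mul_le_mul (v2 l hl) (bin2 l hl) (abs_nonneg _)
                (by positivity)) (by positivity) (by positivity)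
          _ = _ := by rw [mul_pow, mul_pow]; ring)
    refine this.trans_eq (by ring)
  -- assembly
  rw [hGpp, r2]
  have key : P ^ 2 * Gx p p - ∑ l ∈ Icc p q, gh l ^ 2 * V l +
      ∑ l ∈ Icc p q, gh l * (V l * ∑ j ∈ Icc p q, Gx l j * (V j * gh j)) - K3 -
      (P ^ 2 * Gx p p + -(∑ l ∈ Icc p q, gh l ^ 2 * al l) * u +
        (-∑ l ∈ Icc p q, gh l ^ 2 * ga l +
          ∑ l ∈ Icc p q, gh l * (al l * ∑ j ∈ Icc p q, Gx l j * (al j * gh j))) * u ^ 2) =
      -(∑ l ∈ Icc p q, gh l ^ 2 * (V l - al l * u - ga l * u ^ 2)) +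
      (∑ l ∈ Icc p q, gh l * ((V l - al l * u) * ∑ j ∈ Icc p q, Gx l j * (V j * gh j))) +
      (∑ l ∈ Icc p q, gh l * ((al l * u) *
        ∑ j ∈ Icc p q, Gx l j * ((V j - al j * u) * gh j))) - K3 := by
    have e1 : ∑ l ∈ Icc p q, gh l ^ 2 * (V l - al l * u - ga l * u ^ 2) =
        ∑ l ∈ Icc p q, gh l ^ 2 * V l - (∑ l ∈ Icc p q, gh l ^ 2 * al l) * u -
        (∑ l ∈ Icc p q, gh l ^ 2 * ga l) * u ^ 2 := by
      rw [Finset.sum_mul, Finset.sum_mul, ← Finset.sum_sub_distrib, ← Finset.sum_sub_distrib]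
      exact Finset.sum_congr rfl fun l _ => by ring
    have e2 : ∑ l ∈ Icc p q, gh l * ((al l * u) *
        ∑ j ∈ Icc p q, Gx l j * ((V j - al j * u) * gh j)) =
        ∑ l ∈ Icc p q, gh l * ((al l * u) * ∑ j ∈ Icc p q, Gx l j * (V j * gh j)) -
        (∑ l ∈ Icc p q, gh l * (al l * ∑ j ∈ Icc p q, Gx l j * (al j * gh j))) * u ^ 2 := by
      rw [Finset.sum_mul, ← Finset.sum_sub_distrib]
      refine Finset.sum_congr rfl fun l _ => ?_
      have e3 : ∑ j ∈ Icc p q, Gx l j * ((V j - al j * u) * gh j) =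
          ∑ j ∈ Icc p q, Gx l j * (V j * gh j) -
          (∑ j ∈ Icc p q, Gx l j * (al j * gh j)) * u := by
        rw [Finset.sum_mul, ← Finset.sum_sub_distrib]
        exact Finset.sum_congr rfl fun j _ => by ring
      rw [e3]
      ring
    have e4 : ∑ l ∈ Icc p q, gh l * ((V l - al l * u) * ∑ j ∈ Icc p q, Gx l j * (V j * gh j)) =
        ∑ l ∈ Icc p q, gh l * (V l * ∑ j ∈ Icc p q, Gx l j * (V j * gh j)) -
        ∑ l ∈ Icc p q, gh l * ((al l * u) * ∑ j ∈ Icc p q, Gx l j * (V j * gh j)) := by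
      rw [← Finset.sum_sub_distrib]
      exact Finset.sum_congr rfl fun l _ => by ring
    rw [e1, e2, e4]
    ring
  rw [key]
  have t1 := abs_sub (-(∑ l ∈ Icc p q, gh l ^ 2 * (V l - al l * u - ga l * u ^ 2)) +
      (∑ l ∈ Icc p q, gh l * ((V l - al l * u) * ∑ j ∈ Icc p q, Gx l j * (V j * gh j))) +
      (∑ l ∈ Icc p q, gh l * ((al l * u) *
        ∑ j ∈ Icc p q, Gx l j * ((V j - al j * u) * gh j)))) K3
  have t2 := abs_add_le (-(∑ l ∈ Icc p q, gh l ^ 2 * (V l - al l * u - ga l * u ^ 2)) +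
      (∑ l ∈ Icc p q, gh l * ((V l - al l * u) * ∑ j ∈ Icc p q, Gx l j * (V j * gh j))))
      (∑ l ∈ Icc p q, gh l * ((al l * u) *
        ∑ j ∈ Icc p q, Gx l j * ((V j - al j * u) * gh j)))
  have t3 := abs_add_le (-(∑ l ∈ Icc p q, gh l ^ 2 * (V l - al l * u - ga l * u ^ 2)))
      (∑ l ∈ Icc p q, gh l * ((V l - al l * u) * ∑ j ∈ Icc p q, Gx l j * (V j * gh j)))
  rw [abs_neg] at t3
  have w1 : k * h ^ 3 * ω ^ 3 ≤ k ^ 3 * h ^ 3 * ω ^ 5 := by
    calc k * h ^ 3 * ω ^ 3 = k * h ^ 3 * ω ^ 3 * 1 := by ring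
      _ ≤ k * h ^ 3 * ω ^ 3 * (k * ω) ^ 2 := by
          apply mul_le_mul_of_nonneg_left _ (by positivity)
          nlinarith
      _ = _ := by ring
  have w2 : k ^ 2 * h ^ 3 * ω ^ 4 ≤ k ^ 3 * h ^ 3 * ω ^ 5 := by
    calc k ^ 2 * h ^ 3 * ω ^ 4 = k ^ 2 * h ^ 3 * ω ^ 4 * 1 := by ring
      _ ≤ k ^ 2 * h ^ 3 * ω ^ 4 * (k * ω) :=
          mul_le_mul_of_nonneg_left hkω (by positivity)
      _ = _ := by ring
  have w3 : 10 ^ 7 * k ^ 3 * ω ^ 5 * h ^ 3 = 10 ^ 7 * (k ^ 3 * h ^ 3 * ω ^ 5) := by ring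
  rw [w3]
  have w4 : 0 < k ^ 3 * h ^ 3 * ω ^ 5 := by positivity
  linarith

end Vale.Agent.P108.H320
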