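import Vale.Agent.P108.Dyn.Basic

/-!
# P108: Taylor expansions of `phi k` and `a k` with explicit remainders
-/

namespace Vale.Agent.P108.H320

open Vale.Agent.P108 Vale.Agent.P108.Dyn

/-- derivative of `a k` -/
noncomputable def a1 (k x : ℝ) : ℝ := -(4 * Real.pi ^ 2 * k * Real.sin (2 * Real.pi * x))

/-- half the second derivative of `a k` -/
noncomputable def a2 (k x : ℝ) : ℝ := -(4 * Real.pi ^ 3 * k * Real.cos (2 * Real.pi * x))

lemma sin_rem {θ : ℝ} (h : |θ| ≤ 1) : |Real.sin θ - θ| ≤ |θ| ^ 3 / 5 := by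
  have h1 := Real.sin_bound h
  have h2 : Real.sin θ - θ = (Real.sin θ - (θ - θ ^ 3 / 6)) - θ ^ 3 / 6 := by ring
  rw [h2]
  refine (abs_sub _ _).trans ?_
  have h3 : |θ ^ 3 / 6| = |θ| ^ 3 / 6 := by rw [abs_div, abs_pow]; norm_num
  rw [h3]
  have h0 := abs_nonneg θ
  have h4 : |θ| ^ 5 ≤ |θ| ^ 3 := pow_le_pow_of_le_one h0 h (by norm_num)
  have h5 : 0 ≤ |θ| ^ 3 := by positivity
  linarith

lemma cos_rem {θ : ℝ} (h : |θ| ≤ 1) : |Real.cos θ - (1 - θ ^ 2 / 2)| ≤ |θ| ^ 3 / 10 := by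
  have h1 := Real.cos_bound h
  have h0 := abs_nonneg θ
  have h4 : |θ| ^ 4 ≤ |θ| ^ 3 := pow_le_pow_of_le_one h0 h (by norm_num)
  have h5 : 0 ≤ |θ| ^ 3 := by positivity
  linarith

lemma sin_add_rem (A : ℝ) {θ : ℝ} (h : |θ| ≤ 1) :
    |Real.sin (A + θ) - (Real.sin A + θ * Real.cos A - θ ^ 2 / 2 * Real.sin A)| ≤
      |θ| ^ 3 / 3 := by
  have h1 := sin_rem h
  have h2 := cos_rem h
  rw [Real.sin_add]
  have e : Real.sin A * Real.cos θ + Real.cos A * Real.sin θ -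
      (Real.sin A + θ * Real.cos A - θ ^ 2 / 2 * Real.sin A) =
      Real.sin A * (Real.cos θ - (1 - θ ^ 2 / 2)) + Real.cos A * (Real.sin θ - θ) := by ring
  rw [e]
  refine (abs_add_le _ _).trans ?_
  rw [abs_mul, abs_mul]
  have h3 := Real.abs_sin_le_one A
  have h4 := Real.abs_cos_le_one A
  have h5 := mul_le_mul h3 h2 (abs_nonneg _) zero_le_one
  have h6 := mul_le_mul h4 h1 (abs_nonneg _) zero_le_one
  have h7 : 0 ≤ |θ| ^ 3 := by positivity
  linarith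

lemma cos_add_rem (A : ℝ) {θ : ℝ} (h : |θ| ≤ 1) :
    |Real.cos (A + θ) - (Real.cos A - θ * Real.sin A - θ ^ 2 / 2 * Real.cos A)| ≤
      |θ| ^ 3 / 3 := by
  have h1 := sin_rem h
  have h2 := cos_rem h
  rw [Real.cos_add]
  have e : Real.cos A * Real.cos θ - Real.sin A * Real.sin θ -
      (Real.cos A - θ * Real.sin A - θ ^ 2 / 2 * Real.cos A) =
      Real.cos A * (Real.cos θ - (1 - θ ^ 2 / 2)) - Real.sin A * (Real.sin θ - θ) := by ring
  rw [e]
  refine (abs_sub _ _).trans ?_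
  rw [abs_mul, abs_mul]
  have h3 := Real.abs_sin_le_one A
  have h4 := Real.abs_cos_le_one A
  have h5 := mul_le_mul h4 h2 (abs_nonneg _) zero_le_one
  have h6 := mul_le_mul h3 h1 (abs_nonneg _) zero_le_one
  have h7 : 0 ≤ |θ| ^ 3 := by positivity
  linarith

lemma pi_lt : Real.pi < 3.15 := by linarith [Real.pi_lt_d2]

lemma pi_sq_lt : Real.pi ^ 2 < 10 := by nlinarith [Real.pi_lt_d2, Real.pi_pos]

lemma pi_cube_lt : Real.pi ^ 3 < 31.5 := by
  have h1 := pi_sq_lt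
  have h2 := Real.pi_lt_d2
  have h3 := Real.pi_pos
  have : Real.pi ^ 3 = Real.pi ^ 2 * Real.pi := by ring
  rw [this]
  nlinarith

lemma pi_four_lt : Real.pi ^ 4 < 100 := by
  have h1 := pi_sq_lt
  have : Real.pi ^ 4 = Real.pi ^ 2 * Real.pi ^ 2 := by ring
  rw [this]
  have : 0 < Real.pi ^ 2 := by positivity
  nlinarith

lemma abs_a_le {k : ℝ} (hk : 3 ≤ k) (x : ℝ) : |FT.a k x| ≤ 7 * k := by
  unfold FT.a
  refine (abs_add_le _ _).trans ?_
  rw [abs_mul, abs_mul, abs_mul]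
  have h1 := Real.abs_cos_le_one (2 * Real.pi * x)
  have h2 := Real.pi_lt_d2
  have h3 := Real.pi_pos
  rw [abs_of_pos h3, abs_of_pos (show (0 : ℝ) < 2 by norm_num), abs_of_nonneg (by linarith : 0 ≤ k)]
  have h4 : 2 * Real.pi * k * |Real.cos (2 * Real.pi * x)| ≤ 2 * Real.pi * k * 1 :=
    mul_le_mul_of_nonneg_left h1 (by positivity)
  nlinarith

lemma abs_a1_le {k : ℝ} (hk : 0 ≤ k) (x : ℝ) : |a1 k x| ≤ 40 * k := by
  unfold a1
  rw [abs_neg, abs_mul, abs_of_nonneg (show 0 ≤ 4 * Real.pi ^ 2 * k by positivity)]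
  have h1 := Real.abs_sin_le_one (2 * Real.pi * x)
  have h2 := pi_sq_lt
  calc 4 * Real.pi ^ 2 * k * |Real.sin (2 * Real.pi * x)| ≤ 4 * Real.pi ^ 2 * k * 1 :=
        mul_le_mul_of_nonneg_left h1 (by positivity)
    _ ≤ 40 * k := by nlinarith

lemma abs_a2_le {k : ℝ} (hk : 0 ≤ k) (x : ℝ) : |a2 k x| ≤ 126 * k := by
  unfold a2
  rw [abs_neg, abs_mul, abs_of_nonneg (show 0 ≤ 4 * Real.pi ^ 3 * k by positivity)]
  have h1 := Real.abs_cos_le_one (2 * Real.pi * x)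
  have h2 := pi_cube_lt
  calc 4 * Real.pi ^ 3 * k * |Real.cos (2 * Real.pi * x)| ≤ 4 * Real.pi ^ 3 * k * 1 :=
        mul_le_mul_of_nonneg_left h1 (by positivity)
    _ ≤ 126 * k := by nlinarith

lemma two_pi_le {δ : ℝ} (h : |δ| ≤ 1 / 7) : |2 * Real.pi * δ| ≤ 1 := by
  rw [abs_mul, abs_of_pos (by positivity : (0 : ℝ) < 2 * Real.pi)]
  have h2 := Real.pi_lt_d2
  have := abs_nonneg δ
  nlinarith [Real.pi_pos]

/-- second order Taylor expansion of `phi` -/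
lemma phi_taylor {k x y : ℝ} (hk : 0 ≤ k) (h : |y - x| ≤ 1 / 7) :
    |phi k y - phi k x - FT.a k x * (y - x) - a1 k x / 2 * (y - x) ^ 2| ≤
      84 * k * |y - x| ^ 3 := by
  set δ := y - x with hδ
  have e0 : y = x + δ := by rw [hδ]; ring
  have h1 := sin_add_rem (2 * Real.pi * x) (two_pi_le h)
  have e : phi k y - phi k x - FT.a k x * δ - a1 k x / 2 * δ ^ 2 =
      k * (Real.sin (2 * Real.pi * x + 2 * Real.pi * δ) - (Real.sin (2 * Real.pi * x) +
        2 * Real.pi * δ * Real.cos (2 * Real.pi * x) -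
        (2 * Real.pi * δ) ^ 2 / 2 * Real.sin (2 * Real.pi * x))) := by
    rw [e0]
    unfold phi FT.a a1
    rw [show 2 * Real.pi * (x + δ) = 2 * Real.pi * x + 2 * Real.pi * δ by ring]
    ring
  rw [e, abs_mul, abs_of_nonneg hk]
  have h2 : |2 * Real.pi * δ| ^ 3 / 3 ≤ 84 * |δ| ^ 3 := by
    rw [abs_mul, abs_of_pos (by positivity : (0 : ℝ) < 2 * Real.pi), mul_pow]
    have h3 := pi_cube_lt
    have h4 : 0 ≤ |δ| ^ 3 := by positivity
    have h5 : (2 * Real.pi) ^ 3 = 8 * Real.pi ^ 3 := by ring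
    rw [h5]
    nlinarith
  calc _ ≤ k * (|2 * Real.pi * δ| ^ 3 / 3) := mul_le_mul_of_nonneg_left h1 hk
    _ ≤ k * (84 * |δ| ^ 3) := mul_le_mul_of_nonneg_left h2 hk
    _ = 84 * k * |δ| ^ 3 := by ring

/-- first order Taylor expansion of `phi` -/
lemma phi_taylor_one {k x y : ℝ} (hk : 0 ≤ k) (h : |y - x| ≤ 1 / 7) :
    |phi k y - phi k x - FT.a k x * (y - x)| ≤ 32 * k * |y - x| ^ 2 := by
  have h1 := phi_taylor hk h
  have h2 := abs_a1_le hk x
  have h0 := abs_nonneg (y - x)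
  have h3 : |y - x| ^ 3 ≤ 1 / 7 * |y - x| ^ 2 := by
    have : |y - x| ^ 3 = |y - x| * |y - x| ^ 2 := by ring
    rw [this]
    exact mul_le_mul_of_nonneg_right h (by positivity)
  have h4 : |a1 k x / 2 * (y - x) ^ 2| ≤ 20 * k * |y - x| ^ 2 := by
    rw [abs_mul, abs_div, abs_pow, abs_of_pos (show (0 : ℝ) < 2 by norm_num)]
    have : |a1 k x| / 2 ≤ 20 * k := by linarith
    exact mul_le_mul_of_nonneg_right this (by positivity)
  have e : phi k y - phi k x - FT.a k x * (y - x) =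
      (phi k y - phi k x - FT.a k x * (y - x) - a1 k x / 2 * (y - x) ^ 2) +
      a1 k x / 2 * (y - x) ^ 2 := by ring
  rw [e]
  refine (abs_add_le _ _).trans ?_
  have h5 : 84 * k * |y - x| ^ 3 ≤ 12 * k * |y - x| ^ 2 := by
    calc 84 * k * |y - x| ^ 3 ≤ 84 * k * (1 / 7 * |y - x| ^ 2) :=
          mul_le_mul_of_nonneg_left h3 (by positivity)
      _ = 12 * k * |y - x| ^ 2 := by ring
  linarith

/-- second order Taylor expansion of `a` -/
lemma a_taylor {k x y : ℝ} (hk : 0 ≤ k) (h : |y - x| ≤ 1 / 7) :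
    |FT.a k y - FT.a k x - a1 k x * (y - x) - a2 k x * (y - x) ^ 2| ≤
      534 * k * |y - x| ^ 3 := by
  set δ := y - x with hδ
  have e0 : y = x + δ := by rw [hδ]; ring
  have h1 := cos_add_rem (2 * Real.pi * x) (two_pi_le h)
  have e : FT.a k y - FT.a k x - a1 k x * δ - a2 k x * δ ^ 2 =
      2 * Real.pi * k * (Real.cos (2 * Real.pi * x + 2 * Real.pi * δ) -
        (Real.cos (2 * Real.pi * x) -
        2 * Real.pi * δ * Real.sin (2 * Real.pi * x) -
        (2 * Real.pi * δ) ^ 2 / 2 * Real.cos (2 * Real.pi * x))) := by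
    rw [e0]
    unfold FT.a a1 a2
    rw [show 2 * Real.pi * (x + δ) = 2 * Real.pi * x + 2 * Real.pi * δ by ring]
    ring
  rw [e, abs_mul, abs_of_nonneg (show 0 ≤ 2 * Real.pi * k by positivity)]
  have h2 : 2 * Real.pi * (|2 * Real.pi * δ| ^ 3 / 3) ≤ 534 * |δ| ^ 3 := by
    rw [abs_mul, abs_of_pos (by positivity : (0 : ℝ) < 2 * Real.pi), mul_pow]
    have h3 := pi_four_lt
    have h4 : 0 ≤ |δ| ^ 3 := by positivity
    have h5 : 2 * Real.pi * ((2 * Real.pi) ^ 3 * |δ| ^ 3 / 3) =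
      16 / 3 * Real.pi ^ 4 * |δ| ^ 3 := by ring
    rw [h5]
    nlinarith
  calc _ ≤ 2 * Real.pi * k * (|2 * Real.pi * δ| ^ 3 / 3) :=
        mul_le_mul_of_nonneg_left h1 (by positivity)
    _ = k * (2 * Real.pi * (|2 * Real.pi * δ| ^ 3 / 3)) := by ring
    _ ≤ k * (534 * |δ| ^ 3) := mul_le_mul_of_nonneg_left h2 hk
    _ = 534 * k * |δ| ^ 3 := by ring

/-- Lipschitz bound for `a` -/
lemma a_lip {k : ℝ} (hk : 0 ≤ k) (x y : ℝ) : |FT.a k y - FT.a k x| ≤ 40 * k * |y - x| := by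
  unfold FT.a
  have e : 2 + 2 * Real.pi * k * Real.cos (2 * Real.pi * y) -
      (2 + 2 * Real.pi * k * Real.cos (2 * Real.pi * x)) =
      2 * Real.pi * k * (Real.cos (2 * Real.pi * y) - Real.cos (2 * Real.pi * x)) := by ring
  rw [e, abs_mul, abs_of_nonneg (show 0 ≤ 2 * Real.pi * k by positivity)]
  have h1 : |Real.cos (2 * Real.pi * y) - Real.cos (2 * Real.pi * x)| ≤
      |2 * Real.pi * y - 2 * Real.pi * x| := by
    rw [Real.cos_sub_cos, abs_mul, abs_mul]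
    have h2 := Real.abs_sin_le_one ((2 * Real.pi * y + 2 * Real.pi * x) / 2)
    have h3 : |Real.sin ((2 * Real.pi * y - 2 * Real.pi * x) / 2)| ≤
        |(2 * Real.pi * y - 2 * Real.pi * x) / 2| := Real.abs_sin_le_abs
    rw [abs_div, abs_of_pos (show (0 : ℝ) < 2 by norm_num)] at h3
    rw [abs_neg, abs_of_pos (show (0 : ℝ) < 2 by norm_num)]
    have h4 := mul_le_mul h2 h3 (abs_nonneg _) zero_le_one
    linarith
  have h2 : |2 * Real.pi * y - 2 * Real.pi * x| = 2 * Real.pi * |y - x| := by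
    rw [← mul_sub, abs_mul, abs_of_pos (by positivity : (0 : ℝ) < 2 * Real.pi)]
  rw [h2] at h1
  have h3 := pi_sq_lt
  calc 2 * Real.pi * k * |Real.cos (2 * Real.pi * y) - Real.cos (2 * Real.pi * x)| ≤
      2 * Real.pi * k * (2 * Real.pi * |y - x|) := mul_le_mul_of_nonneg_left h1 (by positivity)
    _ = 4 * Real.pi ^ 2 * (k * |y - x|) := by ring
    _ ≤ 40 * (k * |y - x|) := by
        have : 0 ≤ k * |y - x| := by positivity
        nlinarith
    _ = 40 * k * |y - x| := by ring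

end Vale.Agent.P108.H320
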