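import Vale.Agent.P108.H320.Taylor
import Vale.Agent.P108.H504.Green

/-!
# P108: displacement of orbits with a frozen left end, second order expansion

Base orbit `x` on `[p-1, q+1]` with suffix growth `|D p (j-1)| ≤ ω^(q+1-j) |D p q|`.
Second orbit `y` with `y (p-1) = x (p-1)`, `|D p q * (y p - x p)| ≤ h`.
-/

namespace Vale.Agent.P108.H320

open Vale.Agent.P108 Vale.Agent.P108.Dyn Vale.Agent.P108.H504

/-- Discrete Gronwall lemma with geometric weights. -/
lemma gron {e : ℤ → ℝ} {p q : ℤ} {A K ρ : ℝ} (hρ : 0 < ρ) (hA : 0 ≤ A) (hK : 0 ≤ K)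
    (hρA : A * ρ + ρ ^ 2 ≤ 1 / 2) (e0 : e (p - 1) = 0) (e1 : e p = 0)
    (h : ∀ j, p ≤ j → j ≤ q → (∀ i, p - 1 ≤ i → i ≤ j → |e i| ≤ 2 * K * ρ * ρ ^ (q + 1 - i)) →
      |e (j + 1)| ≤ A * |e j| + |e (j - 1)| + K * ρ ^ (q + 1 - j)) :
    ∀ j, p - 1 ≤ j → j ≤ q + 1 → |e j| ≤ 2 * K * ρ * ρ ^ (q + 1 - j) := by
  have key : ∀ n : ℕ, ∀ i : ℤ, p - 1 ≤ i → i ≤ p + n → i ≤ q + 1 →
      |e i| ≤ 2 * K * ρ * ρ ^ (q + 1 - i) := by
    intro n
    induction n with
    | zero =>
      intro i h1 h2 _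
      have hz : e i = 0 := by
        rcases (show i = p - 1 ∨ i = p by push_cast at h2; omega) with h3 | h3
        · rw [h3, e0]
        · rw [h3, e1]
      rw [hz, abs_zero]
      have : 0 < ρ ^ (q + 1 - i) := zpow_pos hρ _
      positivity
    | succ n ih =>
      intro i h1 h2 h3
      rcases (show i ≤ p + n ∨ i = p + n + 1 by push_cast at h2; omega) with h4 | h4
      · exact ih i h1 h4 h3
      · set j : ℤ := p + n with hj
        have hb : ∀ i, p - 1 ≤ i → i ≤ j → |e i| ≤ 2 * K * ρ * ρ ^ (q + 1 - i) :=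
          fun i h5 h6 => ih i h5 h6 (by omega)
        have h5 := h j (by omega) (by omega) hb
        have h6 := hb j (by omega) le_rfl
        have h7 := hb (j - 1) (by omega) (by omega)
        have hw : 0 < ρ ^ (q + 1 - j) := zpow_pos hρ _
        have w1 : ρ ^ (q + 1 - (j - 1)) = ρ ^ (q + 1 - j) * ρ := by
          rw [show q + 1 - (j - 1) = (q + 1 - j) + 1 by ring, zpow_add_one₀ hρ.ne']
        have w2 : ρ * ρ ^ (q + 1 - (j + 1)) = ρ ^ (q + 1 - j) := by
          rw [mul_comm, ← zpow_add_one₀ hρ.ne']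
          congr 1
          ring
        rw [h4]
        have w3 : 2 * K * ρ * ρ ^ (q + 1 - (j + 1)) = 2 * K * ρ ^ (q + 1 - j) := by
          rw [mul_assoc (2 * K), w2]
        rw [w3]
        rw [w1] at h7
        set W := ρ ^ (q + 1 - j) with hW
        have h8 : A * |e j| ≤ A * (2 * K * ρ * W) := mul_le_mul_of_nonneg_left h6 hA
        have h9 : A * (2 * K * ρ * W) + 2 * K * ρ * (W * ρ) + K * W =
            K * W * (2 * (A * ρ + ρ ^ 2) + 1) := by ring
        have h10 : K * W * (2 * (A * ρ + ρ ^ 2) + 1) ≤ K * W * 2 :=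
          mul_le_mul_of_nonneg_left (by linarith) (by positivity)
        linarith
  intro j h1 h2
  exact key (j - p).toNat j h1 (by omega) h2

/-- Existence of solutions of the inhomogeneous recursion to the right of `p`. -/
lemma exists_sol (a f : ℤ → ℝ) (p : ℤ) : ∃ s : ℤ → ℝ, s (p - 1) = 0 ∧ s p = 0 ∧
    ∀ j, p ≤ j → s (j + 1) = a j * s j - s (j - 1) + f j := by
  let g : ℕ → ℝ × ℝ := fun n => Nat.rec ((0 : ℝ), (0 : ℝ))
    (fun m v => (v.2, a (p + m) * v.2 - v.1 + f (p + m))) n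
  have hg : ∀ n : ℕ, g (n + 1) = ((g n).2, a (p + n) * (g n).2 - (g n).1 + f (p + n)) :=
    fun n => rfl
  have hg0 : g 0 = (0, 0) := rfl
  refine ⟨fun j => (g (j - p + 1).toNat).1, ?_, ?_, ?_⟩
  · simp only
    rw [show (p - 1 - p + 1).toNat = 0 by omega, hg0]
  · simp only
    rw [show (p - p + 1).toNat = 0 + 1 by omega, hg, hg0]
  · intro j hj
    simp only
    obtain ⟨n, hn⟩ := Int.le.dest hj
    subst hn
    rw [show (p + (n : ℤ) + 1 - p + 1).toNat = n + 1 + 1 by omega,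
      show (p + (n : ℤ) - p + 1).toNat = n + 1 by omega,
      show (p + (n : ℤ) - 1 - p + 1).toNat = n by omega, hg (n + 1), hg n]

/-- the potential along a sequence of positions -/
noncomputable def av (k : ℝ) (x : ℤ → ℝ) : ℤ → ℝ := fun j => FT.a k (x j)

/-- Base orbit with suffix growth. -/
structure Base (k ω : ℝ) (p q : ℤ) (x : ℤ → ℝ) : Prop where
  hk : 3 ≤ k
  hω : 0 < ω
  hω1 : ω ≤ 1
  hkω : 1 ≤ k * ω
  hpq : p ≤ q
  orb : ∀ j, p ≤ j → j ≤ q → x (j + 1) = phi k (x j) - x (j - 1)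
  ne : D (av k x) p q ≠ 0
  gr : ∀ j, p ≤ j → j ≤ q + 1 → |D (av k x) p (j - 1)| ≤ ω ^ (q + 1 - j) * |D (av k x) p q|

/-- Second orbit in the tube. -/
structure Near (k ω h : ℝ) (p q : ℤ) (x y : ℤ → ℝ) : Prop where
  h1 : 1 ≤ h
  hh : 640 * k * h * ω ^ 2 ≤ 1
  orb : ∀ j, p ≤ j → j ≤ q → y (j + 1) = phi k (y j) - y (j - 1)
  left : y (p - 1) = x (p - 1)
  disp : |D (av k x) p q * (y p - x p)| ≤ h

variable {k ω h : ℝ} {p q : ℤ} {x y : ℤ → ℝ}

lemma Near.h320 (H : Near k ω h p q x y) (B : Base k ω p q x) :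
    320 * k * h * ω ^ 2 ≤ 1 := by
  have := H.hh
  have h1 : 0 ≤ k * h * ω ^ 2 := by
    have := B.hk; have := H.h1; positivity
  linarith

lemma Near.kw (H : Near k ω h p q x y) (B : Base k ω p q x) : 320 * k * ω ^ 2 ≤ 1 := by
  have h1 : 320 * k * ω ^ 2 * 1 ≤ 320 * k * ω ^ 2 * h :=
    mul_le_mul_of_nonneg_left H.h1 (by have := B.hk; positivity)
  have := H.h320 B
  nlinarith

lemma cond2 (B : Base k ω p q x) (hw : 320 * k * ω ^ 2 ≤ 1) :
    7 * k * ω ^ 2 + (ω ^ 2) ^ 2 ≤ 1 / 2 := by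
  have h1 := B.hk
  have h2 := B.hω1
  have h3 : ω ^ 2 ≤ 1 / 960 := by nlinarith [sq_nonneg ω]
  have h4 : 0 ≤ ω ^ 2 := sq_nonneg ω
  nlinarith

lemma cond3 (B : Base k ω p q x) (hw : 320 * k * ω ^ 2 ≤ 1) :
    7 * k * ω ^ 3 + (ω ^ 3) ^ 2 ≤ 1 / 2 := by
  have h1 := B.hk
  have h2 := B.hω1
  have h0 := B.hω
  have h3 : ω ^ 2 ≤ 1 / 960 := by nlinarith [sq_nonneg ω]
  have h5 : ω ^ 3 ≤ ω ^ 2 := by
    have : ω ^ 3 = ω ^ 2 * ω := by ring
    rw [this]
    nlinarith [sq_nonneg ω]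
  have h6 : 0 ≤ ω ^ 3 := by positivity
  have h7 : 7 * k * ω ^ 3 ≤ 7 * k * ω ^ 2 := mul_le_mul_of_nonneg_left h5 (by positivity)
  nlinarith

lemma wle (B : Base k ω p q x) {j : ℤ} (hj : j ≤ q + 1) : ω ^ (q + 1 - j) ≤ 1 := by
  obtain ⟨n, hn⟩ := Int.eq_ofNat_of_zero_le (show 0 ≤ q + 1 - j by omega)
  rw [hn, zpow_natCast]
  exact pow_le_one₀ B.hω.le B.hω1

lemma wle' (B : Base k ω p q x) {j : ℤ} (hj : j ≤ q) : ω ^ (q + 1 - j) ≤ ω := by
  have e : q + 1 - j = (q + 1 - (j + 1)) + 1 := by ring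
  rw [e, zpow_add_one₀ B.hω.ne']
  have := wle B (show j + 1 ≤ q + 1 by omega)
  have h0 := B.hω
  nlinarith

lemma wsq (_B : Base k ω p q x) (n : ℤ) : (ω ^ 2) ^ n = ω ^ n * ω ^ n := by
  rw [show ω ^ 2 = ω * ω by ring, mul_zpow]

lemma wcube (_B : Base k ω p q x) (n : ℤ) : (ω ^ 3) ^ n = ω ^ n * ω ^ n * ω ^ n := by
  rw [show ω ^ 3 = ω * ω * ω by ring, mul_zpow, mul_zpow]

/-- first order displacement -/
lemma lin_disp (B : Base k ω p q x) (H : Near k ω h p q x y) {j : ℤ} (h1 : p - 1 ≤ j)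
    (h2 : j ≤ q + 1) : |D (av k x) p (j - 1) * (y p - x p)| ≤ h * ω ^ (q + 1 - j) := by
  rcases eq_or_lt_of_le h1 with h3 | h3
  · rw [← h3, D_of_le _ (by omega), zero_mul, abs_zero]
    have := zpow_pos B.hω (q + 1 - (p - 1))
    have := H.h1
    positivity
  · have h4 := B.gr j (by omega) h2
    rw [abs_mul]
    calc |D (av k x) p (j - 1)| * |y p - x p| ≤
        ω ^ (q + 1 - j) * |D (av k x) p q| * |y p - x p| :=
          mul_le_mul_of_nonneg_right h4 (abs_nonneg _)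
      _ = ω ^ (q + 1 - j) * |D (av k x) p q * (y p - x p)| := by rw [abs_mul]; ring
      _ ≤ ω ^ (q + 1 - j) * h :=
          mul_le_mul_of_nonneg_left H.disp (zpow_pos B.hω _).le
      _ = h * ω ^ (q + 1 - j) := by ring

/-- **Tube lemma, displacement**: nonlinear part. -/
theorem tube_e (B : Base k ω p q x) (H : Near k ω h p q x y) :
    ∀ j, p - 1 ≤ j → j ≤ q + 1 → |(y j - x j - D (av k x) p (j - 1) * (y p - x p))| ≤
      2 * (128 * k * h ^ 2) * ω ^ 2 * (ω ^ 2) ^ (q + 1 - j) := by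
  have hw := H.kw B
  have hk := B.hk
  have hh1 := H.h1
  have hω := B.hω
  refine gron (A := 7 * k) (by positivity) (by positivity) (by positivity)
    (cond2 B hw) ?_ ?_ ?_
  · rw [H.left, D_of_le _ (by omega)]; ring
  · rw [D_empty]; ring
  · intro j h1 h2 hi
    set e : ℤ → ℝ := fun j => y j - x j - D (av k x) p (j - 1) * (y p - x p) with he
    -- displacement bound at `j`
    have hej := hi j (by omega) le_rfl
    have hlin := lin_disp B H (j := j) (by omega) (by omega)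
    have hwj := wle B (show j ≤ q + 1 by omega)
    have hwj' := wle' B h2
    have hwp : 0 < ω ^ (q + 1 - j) := zpow_pos hω _
    have hb : 2 * (128 * k * h ^ 2) * ω ^ 2 * (ω ^ 2) ^ (q + 1 - j) ≤ h * ω ^ (q + 1 - j) := by
      rw [wsq B]
      have h5 : 256 * k * h * ω ^ 2 ≤ 1 := by nlinarith [H.h320 B, mul_pos hω hω]
      have h6 : 256 * k * h * ω ^ 2 * ω ^ (q + 1 - j) ≤ 1 * 1 :=
        mul_le_mul h5 hwj hwp.le zero_le_one
      calc _ = (256 * k * h * ω ^ 2 * ω ^ (q + 1 - j)) * (h * ω ^ (q + 1 - j)) := by ring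
        _ ≤ (1 * 1) * (h * ω ^ (q + 1 - j)) := mul_le_mul_of_nonneg_right h6 (by positivity)
        _ = _ := by ring
    have hd : |y j - x j| ≤ 2 * h * ω ^ (q + 1 - j) := by
      have : y j - x j = e j + D (av k x) p (j - 1) * (y p - x p) := by rw [he]; ring
      rw [this]
      refine (abs_add_le _ _).trans ?_
      have := hej.trans hb
      linarith
    have hsmall : |y j - x j| ≤ 1 / 7 := by
      refine hd.trans ?_
      have h5 : 2 * h * ω ^ (q + 1 - j) ≤ 2 * h * ω := mul_le_mul_of_nonneg_left hwj' (by linarith)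
      have h6 : 320 * h * ω ≤ 320 * h * ω * (k * ω) :=
        le_mul_of_one_le_right (by positivity) B.hkω
      have h7 : 320 * h * ω * (k * ω) = 320 * k * h * ω ^ 2 := by ring
      have := H.h320 B
      linarith
    have hT := phi_taylor_one (k := k) (by linarith) hsmall
    have hrec : e (j + 1) = FT.a k (x j) * e j - e (j - 1) +
        (phi k (y j) - phi k (x j) - FT.a k (x j) * (y j - x j)) := by
      simp only [he]
      rw [H.orb j h1 h2, B.orb j h1 h2, add_sub_cancel_right, D_right (av k x) h1]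
      have e3 : j - 1 - 1 = j - 2 := by ring
      rw [e3]
      simp only [av]
      ring
    change |e (j + 1)| ≤ 7 * k * |e j| + |e (j - 1)| + _
    rw [hrec]
    have hA := abs_a_le hk (x j)
    have h8 : |FT.a k (x j) * e j| ≤ 7 * k * |e j| := by
      rw [abs_mul]; exact mul_le_mul_of_nonneg_right hA (abs_nonneg _)
    have h9 : 32 * k * |y j - x j| ^ 2 ≤ 128 * k * h ^ 2 * (ω ^ 2) ^ (q + 1 - j) := by
      rw [wsq B]
      have := pow_le_pow_left₀ (abs_nonneg _) hd 2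
      calc 32 * k * |y j - x j| ^ 2 ≤ 32 * k * (2 * h * ω ^ (q + 1 - j)) ^ 2 :=
            mul_le_mul_of_nonneg_left this (by positivity)
        _ = _ := by ring
    have h10 := abs_add_le (FT.a k (x j) * e j - e (j - 1))
      (phi k (y j) - phi k (x j) - FT.a k (x j) * (y j - x j))
    have h11 := abs_sub (FT.a k (x j) * e j) (e (j - 1))
    linarith

lemma e_le (B : Base k ω p q x) (H : Near k ω h p q x y) {j : ℤ} (h2 : j ≤ q + 1) :
    2 * (128 * k * h ^ 2) * ω ^ 2 * (ω ^ 2) ^ (q + 1 - j) ≤ h * ω ^ (q + 1 - j) := by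
  have hw := H.kw B
  have hk := B.hk
  have hh1 := H.h1
  have hω := B.hω
  have hwj := wle B h2
  have hwp : 0 < ω ^ (q + 1 - j) := zpow_pos hω _
  rw [wsq B]
  have h5 : 256 * k * h * ω ^ 2 ≤ 1 := by nlinarith [H.h320 B, mul_pos hω hω]
  have h6 : 256 * k * h * ω ^ 2 * ω ^ (q + 1 - j) ≤ 1 * 1 :=
    mul_le_mul h5 hwj hwp.le zero_le_one
  calc _ = (256 * k * h * ω ^ 2 * ω ^ (q + 1 - j)) * (h * ω ^ (q + 1 - j)) := by ring
    _ ≤ (1 * 1) * (h * ω ^ (q + 1 - j)) := mul_le_mul_of_nonneg_right h6 (by positivity)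
    _ = _ := by ring

/-- **Tube lemma, displacement.** -/
theorem tube_disp (B : Base k ω p q x) (H : Near k ω h p q x y) {j : ℤ} (h1 : p - 1 ≤ j)
    (h2 : j ≤ q + 1) : |y j - x j| ≤ 2 * h * ω ^ (q + 1 - j) := by
  have := (tube_e B H j h1 h2).trans (e_le B H h2)
  have hlin := lin_disp B H h1 h2
  have e : y j - x j = (y j - x j - D (av k x) p (j - 1) * (y p - x p)) +
      D (av k x) p (j - 1) * (y p - x p) := by ring
  rw [e]
  refine (abs_add_le _ _).trans ?_
  linarith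

lemma tube_small (B : Base k ω p q x) (H : Near k ω h p q x y) {j : ℤ} (h1 : p - 1 ≤ j)
    (h2 : j ≤ q) : |y j - x j| ≤ 1 / 7 := by
  have hd := tube_disp B H h1 (show j ≤ q + 1 by omega)
  have hwj' := wle' B h2
  have hh1 := H.h1
  have hω := B.hω
  refine hd.trans ?_
  have h5 : 2 * h * ω ^ (q + 1 - j) ≤ 2 * h * ω := mul_le_mul_of_nonneg_left hwj' (by linarith)
  have h6 : 320 * h * ω ≤ 320 * h * ω * (k * ω) :=
    le_mul_of_one_le_right (by positivity) B.hkω
  have h7 : 320 * h * ω * (k * ω) = 320 * k * h * ω ^ 2 := by ring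
  have := H.h320 B
  linarith

/-- **Tube lemma, continuants.** -/
theorem tube_D (B : Base k ω p q x) (H : Near k ω h p q x y) :
    ∀ j, p - 1 ≤ j → j ≤ q + 1 → |(D (av k y) p (j - 1) - D (av k x) p (j - 1))| ≤
      2 * (160 * k * h * |D (av k x) p q|) * ω ^ 2 * (ω ^ 2) ^ (q + 1 - j) := by
  have hw := H.kw B
  have hk := B.hk
  have hh1 := H.h1
  have hω := B.hω
  set P := |D (av k x) p q| with hP
  have hP0 : 0 < P := abs_pos.2 B.ne
  refine gron (e := fun j => D (av k y) p (j - 1) - D (av k x) p (j - 1)) (A := 7 * k)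
    (by positivity) (by positivity) (by positivity) (cond2 B hw) ?_ ?_ ?_
  · rw [D_of_le _ (by omega), D_of_le _ (by omega)]; ring
  · rw [D_empty, D_empty]; ring
  · intro j h1 h2 hi
    set f : ℤ → ℝ := fun j => D (av k y) p (j - 1) - D (av k x) p (j - 1) with hf
    have hfj := hi j (by omega) le_rfl
    have hwj := wle B (show j ≤ q + 1 by omega)
    have hwp : 0 < ω ^ (q + 1 - j) := zpow_pos hω _
    have hb : 2 * (160 * k * h * P) * ω ^ 2 * (ω ^ 2) ^ (q + 1 - j) ≤ ω ^ (q + 1 - j) * P := by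
      rw [wsq B]
      have h6 : 320 * k * h * ω ^ 2 * ω ^ (q + 1 - j) ≤ 1 * 1 :=
        mul_le_mul (H.h320 B) hwj hwp.le zero_le_one
      calc _ = (320 * k * h * ω ^ 2 * ω ^ (q + 1 - j)) * (ω ^ (q + 1 - j) * P) := by ring
        _ ≤ (1 * 1) * (ω ^ (q + 1 - j) * P) := mul_le_mul_of_nonneg_right h6 (by positivity)
        _ = _ := by ring
    have hgr := B.gr j h1 (by omega)
    have hDy : |D (av k y) p (j - 1)| ≤ 2 * (ω ^ (q + 1 - j) * P) := by
      have : D (av k y) p (j - 1) = f j + D (av k x) p (j - 1) := by rw [hf]; ring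
      rw [this]
      refine (abs_add_le _ _).trans ?_
      have := hfj.trans hb
      linarith
    have hrec : f (j + 1) = FT.a k (x j) * f j - f (j - 1) +
        (FT.a k (y j) - FT.a k (x j)) * D (av k y) p (j - 1) := by
      simp only [hf]
      rw [add_sub_cancel_right, D_right (av k x) h1, D_right (av k y) h1]
      have e3 : j - 1 - 1 = j - 2 := by ring
      rw [e3]
      simp only [av]
      ring
    change |f (j + 1)| ≤ 7 * k * |f j| + |f (j - 1)| + _
    rw [hrec]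
    have hA := abs_a_le hk (x j)
    have h8 : |FT.a k (x j) * f j| ≤ 7 * k * |f j| := by
      rw [abs_mul]; exact mul_le_mul_of_nonneg_right hA (abs_nonneg _)
    have hd := tube_disp B H (j := j) (by omega) (by omega)
    have hl := a_lip (k := k) (by linarith) (x j) (y j)
    have h9 : |(FT.a k (y j) - FT.a k (x j)) * D (av k y) p (j - 1)| ≤
        160 * k * h * P * (ω ^ 2) ^ (q + 1 - j) := by
      rw [wsq B, abs_mul]
      have h12 : |FT.a k (y j) - FT.a k (x j)| ≤ 40 * k * (2 * h * ω ^ (q + 1 - j)) :=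
        hl.trans (mul_le_mul_of_nonneg_left hd (by positivity))
      calc _ ≤ (40 * k * (2 * h * ω ^ (q + 1 - j))) * (2 * (ω ^ (q + 1 - j) * P)) :=
            mul_le_mul h12 hDy (abs_nonneg _) (by positivity)
        _ = _ := by ring
    have h10 := abs_add_le (FT.a k (x j) * f j - f (j - 1))
      ((FT.a k (y j) - FT.a k (x j)) * D (av k y) p (j - 1))
    have h11 := abs_sub (FT.a k (x j) * f j) (f (j - 1))
    linarith

/-- the continuants along the second orbit have the same growth, up to a factor `2` -/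
lemma tube_D_le (B : Base k ω p q x) (H : Near k ω h p q x y) {j : ℤ} (h1 : p - 1 ≤ j)
    (h2 : j ≤ q + 1) : |D (av k y) p (j - 1)| ≤ 2 * ω ^ (q + 1 - j) * |D (av k x) p q| := by
  have hw := H.kw B
  have hk := B.hk
  have hh1 := H.h1
  have hω := B.hω
  have hwj := wle B h2
  have hwp : 0 < ω ^ (q + 1 - j) := zpow_pos hω _
  set P := |D (av k x) p q| with hP
  have hP0 : 0 < P := abs_pos.2 B.ne
  have h3 := tube_D B H j h1 h2
  rw [wsq B] at h3
  have h6 : 320 * k * h * ω ^ 2 * ω ^ (q + 1 - j) ≤ 1 * 1 :=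
    mul_le_mul (H.h320 B) hwj hwp.le zero_le_one
  have h7 : 2 * (160 * k * h * P) * ω ^ 2 * (ω ^ (q + 1 - j) * ω ^ (q + 1 - j)) ≤
      ω ^ (q + 1 - j) * P := by
    calc _ = (320 * k * h * ω ^ 2 * ω ^ (q + 1 - j)) * (ω ^ (q + 1 - j) * P) := by ring
      _ ≤ (1 * 1) * (ω ^ (q + 1 - j) * P) := mul_le_mul_of_nonneg_right h6 (by positivity)
      _ = _ := by ring
  have h8 : |D (av k x) p (j - 1)| ≤ ω ^ (q + 1 - j) * P := by
    rcases eq_or_lt_of_le h1 with h9 | h9
    · rw [← h9, D_of_le _ (by omega), abs_zero]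
      have := zpow_pos hω (q + 1 - (p - 1))
      positivity
    · exact B.gr j (by omega) h2
  have e : D (av k y) p (j - 1) = (D (av k y) p (j - 1) - D (av k x) p (j - 1)) +
      D (av k x) p (j - 1) := by ring
  rw [e]
  refine (abs_add_le _ _).trans ?_
  linarith

/-- `D p q` along the second orbit. -/
lemma tube_D_top (B : Base k ω p q x) (H : Near k ω h p q x y) :
    |D (av k y) p q - D (av k x) p q| ≤ 320 * k * h * ω ^ 2 * |D (av k x) p q| := by
  have h3 := tube_D B H (q + 1) (by have := B.hpq; omega) le_rfl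
  rw [add_sub_cancel_right, sub_self, zpow_zero] at h3
  linarith

end Vale.Agent.P108.H320
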